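import Vale.Agent.P262.Pot

/-! Chains of projections driven by orthonormal inputs and rank one cuts. -/

namespace Vale.Agent.P262

open Matrix

/-- Orthonormal inputs, exit directions and a weight form that is diagonal on the inputs. -/
structure Sys (ι : Type) [Fintype ι] where
  A : Matrix ι ι ℝ
  N : ℕ
  e : ℕ → ι → ℝ
  γ : ℕ → ι → ℝ
  a : ℕ → ℝ
  symm : Aᵀ = A
  pos : ∀ x, 0 ≤ qf A x
  unit : ∀ k < N, nsq (e k) = 1
  orth : ∀ k < N, ∀ j < N, k ≠ j → e k ⬝ᵥ e j = 0
  eig : ∀ k < N, A *ᵥ e k = a k • e k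
  hit : ∀ k < N, γ k ⬝ᵥ e k ≠ 0

namespace Sys

variable {ι : Type} [Fintype ι] [DecidableEq ι] (S : Sys ι)

/-- A projection orthogonal to the inputs from time `s` on. -/
def Good (s : ℕ) (P : Matrix ι ι ℝ) : Prop := IsP P ∧ ∀ j, s ≤ j → j < S.N → P *ᵥ S.e j = 0

/-- One step of a chain. -/
noncomputable def step (k : ℕ) (P : Matrix ι ι ℝ) : Matrix ι ι ℝ :=
  cut (S.γ k) (P + line (S.e k))

/-- The chain started at time `s`. -/
noncomputable def ch (P : Matrix ι ι ℝ) (s : ℕ) : ℕ → Matrix ι ι ℝ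
  | 0 => P
  | n + 1 => S.step (s + n) (ch P s n)

/-- The starting projection enlarged by the inputs. -/
noncomputable def ext (P : Matrix ι ι ℝ) (s : ℕ) : ℕ → Matrix ι ι ℝ
  | 0 => P
  | n + 1 => ext P s n + line (S.e (s + n))

variable {S} {P P' : Matrix ι ι ℝ} {s k n : ℕ}

omit [DecidableEq ι] in
theorem a_nonneg (hk : k < S.N) : 0 ≤ S.a k := by
  have := S.pos (S.e k)
  rw [qf, S.eig k hk, dotProduct_smul, smul_eq_mul] at this
  have h := S.unit k hk
  rw [nsq] at h
  rwa [h, mul_one] at this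

omit [DecidableEq ι] in
theorem Good.mul_line (h : S.Good k P) (hk : k < S.N) : P * line (S.e k) = 0 := by
  rw [P262.mul_line, h.2 k le_rfl hk]; simp

omit [DecidableEq ι] in
theorem Good.add (h : S.Good k P) (hk : k < S.N) : S.Good (k + 1) (P + line (S.e k)) :=
  ⟨h.1.add (isP_line _) (h.mul_line hk), fun j h1 h2 => by
    rw [add_mulVec, h.2 j (by omega) h2, line_mulVec, S.orth k hk j h2 (by omega)]; simp⟩

omit [DecidableEq ι] in
theorem Good.of_le (h : S.Good k P) (hP' : IsP P') (hle : P * P' = P') : S.Good k P' :=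
  ⟨hP', fun j h1 h2 => by rw [← h.1.le_comm hP' hle, ← mulVec_mulVec, h.2 j h1 h2, mulVec_zero]⟩

omit [DecidableEq ι] in
theorem Good.step (h : S.Good k P) (hk : k < S.N) : S.Good (k + 1) (S.step k P) :=
  (h.add hk).of_le (isP_cut (h.add hk).1) (cut_le (h.add hk).1)

omit [DecidableEq ι] in
theorem e_ne (hk : k < S.N) : S.e k ≠ 0 := fun h => by
  have := S.unit k hk
  rw [h] at this
  simp [nsq] at this

omit [DecidableEq ι] in
theorem Good.trace_step (h : S.Good k P) (hk : k < S.N) : trace (S.step k P) = trace P := by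
  have : (P + line (S.e k)) *ᵥ S.γ k ≠ 0 := fun h0 => by
    have h1 := dot_mulVec_symm (h.add hk).1.symm (S.γ k) (S.e k)
    rw [h0, add_mulVec, h.2 k le_rfl hk, line_self, zero_add, zero_dotProduct] at h1
    exact S.hit k hk h1
  rw [Sys.step, cut, trace_sub, trace_add, trace_line this, trace_line (e_ne hk)]
  ring

omit [DecidableEq ι] in
theorem Good.ch (h : S.Good s P) : ∀ n, s + n ≤ S.N → S.Good (s + n) (S.ch P s n)
  | 0, _ => h
  | n + 1, hn => (h.ch n (by omega)).step (by omega)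

omit [DecidableEq ι] in
theorem Good.trace_ch (h : S.Good s P) : ∀ n, s + n ≤ S.N → trace (S.ch P s n) = trace P
  | 0, _ => rfl
  | n + 1, hn => ((h.ch n (by omega)).trace_step (by omega)).trans (h.trace_ch n (by omega))

omit [DecidableEq ι] in
theorem ch_add (P : Matrix ι ι ℝ) (s n : ℕ) :
    ∀ m, S.ch P s (n + m) = S.ch (S.ch P s n) (s + n) m
  | 0 => rfl
  | m + 1 => by
    show S.step (s + (n + m)) (S.ch P s (n + m)) = S.step (s + n + m) _
    rw [ch_add P s n m, add_assoc]

omit [DecidableEq ι] in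
theorem Good.add_mono (h : S.Good k P) (h' : S.Good k P') (hk : k < S.N) (hle : P * P' = P') :
    (P + line (S.e k)) * (P' + line (S.e k)) = P' + line (S.e k) := by
  rw [add_mul, mul_add, mul_add, hle, h.mul_line hk, (isP_line _).idem,
    h'.1.orth_comm (isP_line _) (h'.mul_line hk)]
  simp

theorem Good.ch_mono (h : S.Good s P) (h' : S.Good s P') (hle : P * P' = P') :
    ∀ n, s + n ≤ S.N → S.ch P s n * S.ch P' s n = S.ch P' s n
  | 0, _ => hle
  | n + 1, hn => by
    have h1 := h.ch n (by omega)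
    have h2 := h'.ch n (by omega)
    exact cut_mono (h1.add (by omega)).1 (h2.add (by omega)).1
      (h1.add_mono h2 (by omega) (h.ch_mono h' hle n (by omega)))

omit [DecidableEq ι] in
theorem Good.dom (h : S.Good s P) {y : ι → ℝ} (hy : P *ᵥ y = 0)
    (he : ∀ j, s ≤ j → j < S.N → S.e j ⬝ᵥ y = 0) : ∀ n, s + n ≤ S.N → S.ch P s n *ᵥ y = 0
  | 0, _ => hy
  | n + 1, hn => cut_kill ((h.ch n (by omega)).add (by omega)).1 (by
    rw [add_mulVec, h.dom hy he n (by omega), line_mulVec, he _ (by omega) (by omega)]; simp)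

omit [DecidableEq ι] in
theorem Good.ext (h : S.Good s P) : ∀ n, s + n ≤ S.N → S.Good (s + n) (S.ext P s n)
  | 0, _ => h
  | n + 1, hn => (h.ext n (by omega)).add (by omega)

omit [DecidableEq ι] in
theorem Good.ext_ch (h : S.Good s P) :
    ∀ n, s + n ≤ S.N → S.ext P s n * S.ch P s n = S.ch P s n
  | 0, _ => h.1.idem
  | n + 1, hn => by
    have h1 := h.ext n (by omega)
    have h2 := h.ch n (by omega)
    show (S.ext P s n + line _) * cut _ _ = cut _ _
    rw [← cut_le (h2.add (by omega)).1, ← mul_assoc,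
      h1.add_mono h2 (by omega) (h.ext_ch n (by omega))]

omit [DecidableEq ι] in
theorem Good.ext_mono (h : S.Good s P) (m : ℕ) :
    ∀ n, s + (m + n) ≤ S.N → S.ext P s (m + n) * S.ext P s m = S.ext P s m
  | 0, hn => (h.ext m hn).1.idem
  | n + 1, hn => by
    show (S.ext P s (m + n) + line (S.e (s + (m + n)))) * _ = _
    have h1 := h.ext m (by omega)
    have h2 : S.ext P s m * line (S.e (s + (m + n))) = 0 := by
      rw [P262.mul_line, h1.2 _ (by omega) (by omega)]; simp
    rw [add_mul, h.ext_mono m n (by omega), h1.1.orth_comm (isP_line _) h2, add_zero]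

omit [DecidableEq ι] in
theorem Good.up_add {l : ℝ} (h : S.Good k P) (hk : k < S.N) (hup : Up S.A l P) (ha : S.a k ≤ l) :
    Up S.A l (P + line (S.e k)) := by
  intro x
  have h1 : P *ᵥ x ⬝ᵥ S.e k = 0 := by
    rw [← dot_mulVec_symm h.1.symm, h.2 k le_rfl hk, dotProduct_zero]
  have h2 : S.e k ⬝ᵥ S.A *ᵥ P *ᵥ x = 0 := by
    rw [dot_mulVec_symm S.symm, S.eig k hk, smul_dotProduct, dotProduct_comm, h1, smul_zero]
  have h3 := hup x
  have h4 : S.e k ⬝ᵥ S.e k = 1 := S.unit k hk
  rw [add_mulVec, line_mulVec]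
  generalize (nsq (S.e k))⁻¹ * (S.e k ⬝ᵥ x) = c
  simp only [qf, nsq, mulVec_add, mulVec_smul, dotProduct_add, add_dotProduct, smul_dotProduct,
    dotProduct_smul, S.eig k hk, h1, h2, h4, dotProduct_comm (S.e k) (P *ᵥ x), smul_eq_mul]
    at h3 ⊢
  nlinarith [mul_le_mul_of_nonneg_left ha (mul_self_nonneg c)]

omit [DecidableEq ι] in
theorem Good.up_ext {l : ℝ} (h : S.Good s P) (hup : Up S.A l P) :
    ∀ n, s + n ≤ S.N → (∀ j < n, S.a (s + j) ≤ l) → Up S.A l (S.ext P s n)
  | 0, _, _ => hup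
  | n + 1, hn, ha => (h.ext n (by omega)).up_add (by omega)
      (h.up_ext hup n (by omega) fun j hj => ha j (by omega)) (ha n (by omega))

omit [DecidableEq ι] in
theorem Good.Q0_add (h : S.Good k P) (hk : k < S.N) :
    Q0 S.A (P + line (S.e k)) = Q0 S.A P + S.a k ^ 2 := by
  have hL := isP_line (S.e k)
  have h1 : S.A * line (S.e k) = S.a k • line (S.e k) := by
    rw [P262.mul_line, S.eig k hk, line, smul_vecMulVec, smul_comm]
  have h2 : line (S.e k) * S.A = S.a k • line (S.e k) := by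
    have := congrArg transpose h1
    rwa [transpose_mul, transpose_smul, hL.symm, S.symm] at this
  have h3 := h.mul_line hk
  have h4 := h.1.orth_comm hL h3
  have h5 : (P + line (S.e k)) * S.A * (P + line (S.e k)) =
      P * S.A * P + S.a k • line (S.e k) := by
    rw [add_mul, add_mul, mul_add, mul_add, h2, mul_assoc P S.A (line _), h1]
    simp [h3, h4, hL.idem]
  have hZ : (P * S.A * P)ᵀ = P * S.A * P := by
    rw [transpose_mul, transpose_mul, S.symm, h.1.symm, mul_assoc]
  have a1 : line (S.e k) * (P * S.A * P) = 0 := by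
    rw [← mul_assoc, ← mul_assoc, h4, zero_mul, zero_mul]
  have a2 : P * S.A * P * line (S.e k) = 0 := by rw [mul_assoc, h3, mul_zero]
  rw [Q0, Q0, h5, fro, fro, transpose_add, transpose_smul, hZ, hL.symm]
  simp only [add_mul, mul_add, smul_mul_assoc, mul_smul_comm, hL.idem, a1, a2, smul_zero,
    add_zero, zero_add, trace_add, trace_smul, smul_eq_mul, trace_line (e_ne hk)]
  ring

omit [DecidableEq ι] in
theorem Good.Q0_ext (h : S.Good s P) : ∀ n, s + n ≤ S.N →
    Q0 S.A (S.ext P s n) = Q0 S.A P + ∑ j ∈ Finset.range n, S.a (s + j) ^ 2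
  | 0, _ => by simp [Sys.ext]
  | n + 1, hn => by
    rw [Finset.sum_range_succ, ← add_assoc, ← h.Q0_ext n (by omega)]
    exact (h.ext n (by omega)).Q0_add (by omega)

theorem Good.qq_step {ν : ℝ} (h : S.Good k P) (hk : k < S.N) :
    qq S.A ν (S.step k P) ≤ qq S.A ν P + min (S.a k) ν ^ 2 := by
  rw [← sub_le_iff_le_add]
  refine le_qq h.1 fun P0 h0 hle => ?_
  have g0 := h.of_le h0 hle
  rcases le_total (S.a k) ν with ha | ha
  · have h1 := qq_le (A := S.A) (ν := ν) (h.step hk).1 (g0.step hk).1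
      (cut_mono (h.add hk).1 (g0.add hk).1 (h.add_mono g0 hk hle))
    have h2 := Q0_mono (A := S.A) (g0.add hk).1 (g0.step hk).1 (cut_le (g0.add hk).1)
    rw [h.trace_step hk, g0.trace_step hk] at h1
    rw [g0.Q0_add hk] at h2
    rw [min_eq_left ha]
    linarith
  · have h1 := qq_le (A := S.A) (ν := ν) (h.step hk).1 (isP_cut (γ := S.γ k) h0)
      (cut_mono (h.add hk).1 h0 (by
        rw [add_mul, hle, h0.orth_comm (isP_line _) (g0.mul_line hk), add_zero]))
    have h2 := Q0_mono (A := S.A) h0 (isP_cut (γ := S.γ k) h0) (cut_le h0)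
    have h3 := trace_line_le (P0 *ᵥ S.γ k)
    rw [h.trace_step hk] at h1
    rw [min_eq_right ha]
    have h4 : trace (cut (S.γ k) P0) = trace P0 - trace (line (P0 *ᵥ S.γ k)) := trace_sub _ _
    rw [h4] at h1
    nlinarith [mul_le_mul_of_nonneg_left h3 (sq_nonneg ν)]

end Sys

end Vale.Agent.P262
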