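import Vale.Agent.P262.Chain

/-! Families of quadratic constraints, their cost, and the median splitting chain. -/

namespace Vale.Agent.P262

open Matrix

variable {ι : Type} [Fintype ι]

/-- The cost of a family of constraints. -/
def cost (A : Matrix ι ι ℝ) (L : List (Matrix ι ι ℝ)) : ℝ :=
  (L.map fun m => fro m * aco A m).sum

/-- A property forced by a family of small constraints of bounded cost. -/
def Cov (A : Matrix ι ι ℝ) (c : ℝ) (Q : (ι → ℝ) → Prop) : Prop :=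
  ∃ L : List (Matrix ι ι ℝ), (∀ m ∈ L, fro m ≤ 1 / 8) ∧ cost A L ≤ c ∧
    ∀ g, (∀ m ∈ L, nsq (m *ᵥ g) ≤ 1) → Q g

variable {A : Matrix ι ι ℝ} {c c' : ℝ} {Q Q' : (ι → ℝ) → Prop}

theorem Cov.mono (h : Cov A c Q) (hc : c ≤ c') (hQ : ∀ g, Q g → Q' g) : Cov A c' Q' := by
  obtain ⟨L, h1, h2, h3⟩ := h
  exact ⟨L, h1, h2.trans hc, fun g hg => hQ g (h3 g hg)⟩

theorem Cov.and (h : Cov A c Q) (h' : Cov A c' Q') : Cov A (c + c') fun g => Q g ∧ Q' g := by
  obtain ⟨L, h1, h2, h3⟩ := h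
  obtain ⟨L', h1', h2', h3'⟩ := h'
  refine ⟨L ++ L', fun m hm => (List.mem_append.1 hm).elim (h1 m) (h1' m), ?_, fun g hg =>
    ⟨h3 g fun m hm => hg m (List.mem_append_left _ hm),
      h3' g fun m hm => hg m (List.mem_append_right _ hm)⟩⟩
  simp only [cost, List.map_append, List.sum_append] at *
  linarith

theorem Cov.triv (hc : 0 ≤ c) (hQ : ∀ g, Q g) : Cov A c Q :=
  ⟨[], by simp, by simpa [cost] using hc, fun g _ => hQ g⟩

theorem aco_smul (t : ℝ) (m : Matrix ι ι ℝ) : aco A (t • m) = t ^ 2 * aco A m := by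
  simp [aco, sq, mul_assoc]

theorem Cov.single {m : Matrix ι ι ℝ} {b : ℝ} (hb : 0 < b) (hm : fro m ≤ b ^ 2 / 8) :
    Cov A (fro m * aco A m / b ^ 4) fun g => nsq (m *ᵥ g) ≤ b ^ 2 := by
  refine ⟨[b⁻¹ • m], ?_, ?_, fun g hg => ?_⟩
  · simp only [List.mem_singleton, forall_eq, fro_smul]
    rw [inv_pow, inv_mul_le_iff₀ (by positivity)]
    linarith
  · simp only [cost, List.map_singleton, List.sum_singleton, fro_smul, aco_smul]
    apply le_of_eq
    field_simp
  · have := hg _ (List.mem_singleton_self _)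
    rwa [smul_mulVec, nsq_smul, inv_pow, inv_mul_le_iff₀ (by positivity), mul_one] at this

theorem Cov.all {Q : ℕ → (ι → ℝ) → Prop} {c : ℕ → ℝ} :
    ∀ n, (∀ t < n, Cov A (c t) (Q t)) → Cov A (∑ t ∈ Finset.range n, c t) fun g => ∀ t < n, Q t g
  | 0, _ => Cov.triv (by simp) fun _ _ h => absurd h (Nat.not_lt_zero _)
  | n + 1, h => by
    rw [Finset.sum_range_succ]
    refine ((Cov.all n fun t ht => h t (by omega)).and (h n (by omega))).mono le_rfl ?_
    rintro g ⟨h1, h2⟩ t ht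
    rcases Nat.lt_succ_iff_lt_or_eq.1 ht with ht | rfl
    exacts [h1 t ht, h2]

theorem chain {m : ℕ → ℕ → Matrix ι ι ℝ} {D : ℕ → ℝ} {r : (ι → ℝ) → ℕ → ℝ} {lam : ℝ} {T : ℕ}
    (hlam : 0 ≤ lam) (hD : ∀ s t, s ≤ t → t ≤ T → fro (m s t) ≤ D t - D s)
    (ha : ∀ s t, s ≤ t → t ≤ T → aco A (m s t) ≤ lam * fro (m s t))
    (hr : ∀ g s t b, s ≤ t → t ≤ T → 0 ≤ b → nsq (m s t *ᵥ g) ≤ b ^ 2 → r g t ≤ r g s + b)
    (n : ℕ) : ∀ (s : ℕ) (w b : ℝ), s + n ≤ T → 0 < b → D (s + n) - D s ≤ w → w ≤ b ^ 2 / 8 →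
      Cov A (5 * lam * w ^ 2 / b ^ 4) fun g => ∀ t, s ≤ t → t ≤ s + n → r g t ≤ r g s + 10 * b := by
  induction n using Nat.strong_induction_on with
  | _ n ih =>
  intro s w b hT hb hw hwb
  have mono : ∀ u t, u ≤ t → t ≤ T → D u ≤ D t := fun u t h1 h2 => by
    have := hD u t h1 h2
    have := fro_nonneg (m u t)
    linarith
  have hw0 : 0 ≤ w := by have := mono s (s + n) (by omega) hT; linarith
  rcases Nat.eq_zero_or_pos n with rfl | hn
  · refine Cov.triv (by positivity) fun g t h1 h2 => ?_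
    obtain rfl : t = s := by omega
    linarith
  have hex : ∃ k, n ≤ k + 1 ∨ w / 2 < D (s + (k + 1)) - D s := ⟨n, Or.inl (by omega)⟩
  classical
  obtain ⟨k, hk1, hk2⟩ : ∃ k, (n ≤ k + 1 ∨ w / 2 < D (s + (k + 1)) - D s) ∧
      ∀ j < k, ¬ (n ≤ j + 1 ∨ w / 2 < D (s + (j + 1)) - D s) :=
    ⟨Nat.find hex, Nat.find_spec hex, fun j hj => Nat.find_min hex hj⟩
  have hkn : k + 1 ≤ n := by
    rcases k with _ | k
    · omega
    · have := hk2 k (by omega)
      rw [not_or] at this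
      omega
  have hl : D (s + k) - D s ≤ w / 2 := by
    rcases k with _ | k
    · simp only [add_zero, sub_self]; positivity
    · have := hk2 k (by omega)
      rw [not_or] at this
      exact not_lt.1 this.2
  have hu : D (s + (k + 1) + (n - (k + 1))) - D (s + (k + 1)) ≤ w / 2 := by
    rw [show s + (k + 1) + (n - (k + 1)) = s + n by omega]
    rcases hk1 with h | h
    · rw [show n = k + 1 by omega, sub_self]; positivity
    · linarith
  have hb' : w / 2 ≤ (9 / 10 * b) ^ 2 / 8 := by nlinarith [sq_nonneg b]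
  have c1 := ih k (by omega) s (w / 2) (9 / 10 * b) (by omega) (by positivity) hl hb'
  have c2 := ih (n - (k + 1)) (by omega) (s + (k + 1)) (w / 2) (9 / 10 * b) (by omega)
    (by positivity) hu hb'
  have hf : fro (m s (s + (k + 1))) ≤ w := by
    have := hD s (s + (k + 1)) (by omega) (by omega)
    have := mono (s + (k + 1)) (s + n) (by omega) hT
    linarith
  have c3 := Cov.single (A := A) hb (hf.trans hwb)
  refine ((c1.and c2).and c3).mono ?_ ?_
  · have f0 := fro_nonneg (m s (s + (k + 1)))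
    have h1 : fro (m s (s + (k + 1))) * aco A (m s (s + (k + 1))) ≤ w * (lam * w) :=
      (mul_le_mul_of_nonneg_left (ha s _ (by omega) (by omega)) f0).trans
        (mul_le_mul hf (mul_le_mul_of_nonneg_left hf hlam) (by positivity) hw0)
    have h2 := div_le_div_of_nonneg_right h1 (by positivity : 0 ≤ b ^ 4)
    have h3 : 0 ≤ lam * w ^ 2 / b ^ 4 := by positivity
    have e1 : 5 * lam * (w / 2) ^ 2 / (9 / 10 * b) ^ 4 = 12500 / 6561 * (lam * w ^ 2 / b ^ 4) := by
      field_simp; ring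
    have e2 : w * (lam * w) / b ^ 4 = lam * w ^ 2 / b ^ 4 := by ring
    have e3 : 5 * lam * w ^ 2 / b ^ 4 = 5 * (lam * w ^ 2 / b ^ 4) := by ring
    linarith
  · rintro g ⟨⟨g1, g2⟩, g3⟩ t h1 h2
    rcases le_or_gt t (s + k) with h | h
    · have := g1 t h1 h
      linarith
    · have := g2 t (by omega) (by omega)
      have := hr g s (s + (k + 1)) b (by omega) (by omega) hb.le g3
      linarith

end Vale.Agent.P262
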