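import Vale.Agent.P262.Win

/-! The multiscale induction: cheap constraints control a whole chain of projections. -/

namespace Vale.Agent.P262

open Matrix Finset

variable {ι : Type} [Fintype ι] [DecidableEq ι]

/-- The multiscale potential of a projection. -/
noncomputable def Th (A : Matrix ι ι ℝ) : ℕ → ℝ → Matrix ι ι ℝ → ℝ
  | 0, _, _ => 0
  | J + 1, l, P => qq A l P / l + Th A J (l / 2) P

/-- The multiscale potential of an input. -/
noncomputable def II : ℕ → ℝ → ℝ → ℝ
  | 0, _, _ => 0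
  | J + 1, l, a => min a l ^ 2 / l + II J (l / 2) a

theorem II_le_two {a : ℝ} (ha : 0 ≤ a) : ∀ (J : ℕ) {l : ℝ}, 0 < l → II J l a ≤ 2 * l
  | 0, l, hl => by simp only [II]; positivity
  | J + 1, l, hl => by
    have h1 := II_le_two ha J (half_pos hl)
    have h2 : min a l ^ 2 / l ≤ l := by
      rw [div_le_iff₀ hl, ← sq]
      exact pow_le_pow_left₀ (le_min ha hl.le) (min_le_right _ _) 2
    simp only [II]
    linarith

theorem II_le {a : ℝ} (ha : 0 ≤ a) :
    ∀ (J : ℕ) {l : ℝ}, 0 < l → a ≤ l → II J l a ≤ 4 * a - a ^ 2 / l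
  | 0, l, hl, h => by
    have : a ^ 2 / l ≤ a := by rw [div_le_iff₀ hl]; nlinarith
    simp only [II]
    linarith
  | J + 1, l, hl, h => by
    simp only [II, min_eq_left h]
    rcases le_total a (l / 2) with h1 | h1
    · have := II_le ha J (half_pos hl) h1
      have e : a ^ 2 / (l / 2) = 2 * (a ^ 2 / l) := by field_simp
      linarith
    · have := II_le_two ha J (half_pos hl)
      have h2 : a ^ 2 / l ≤ 2 * a - l / 2 := by rw [div_le_iff₀ hl]; nlinarith
      linarith

omit [DecidableEq ι] in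
theorem Th_nonneg {A P : Matrix ι ι ℝ} (hP : IsP P) : ∀ (J : ℕ) {l : ℝ}, 0 < l → 0 ≤ Th A J l P
  | 0, _, _ => le_rfl
  | J + 1, _, hl => add_nonneg (div_nonneg (qq_nonneg hP) hl.le) (Th_nonneg hP J (half_pos hl))

omit [DecidableEq ι] in
theorem Th_zero {A P : Matrix ι ι ℝ} (hP : IsP P) (h0 : A * P = 0) :
    ∀ (J : ℕ) {l : ℝ}, 0 < l → Th A J l P ≤ 0
  | 0, _, _ => le_rfl
  | J + 1, l, hl => by
    have h1 := qq_le_Q0 (A := A) (ν := l) hP
    rw [Q0, mul_assoc, h0, mul_zero] at h1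
    have h2 : fro (0 : Matrix ι ι ℝ) = 0 := by simp [fro]
    exact add_nonpos (div_nonpos_of_nonpos_of_nonneg (h2 ▸ h1) hl.le)
      (Th_zero hP h0 J (half_pos hl))

theorem Th_split {A P R W W' : Matrix ι ι ℝ} (hA : Aᵀ = A) (hA0 : ∀ x, 0 ≤ qf A x) (hP : IsP P)
    (hR : IsP R) (hle : P * R = R) (hx : (P - R) * A * R = 0) (hW : IsP W) (hW' : IsP W')
    (hle' : W * W' = W') (ht : trace W - trace W' = trace P - trace R) :
    ∀ (J : ℕ) {l : ℝ}, 0 < l → Lo A l (P - R) →
      Th A J l R - Th A J l W' ≤ Th A J l P - Th A J l W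
  | 0, _, _, _ => le_rfl
  | J + 1, l, hl, hlo => by
    have h1 := Th_split hA hA0 hP hR hle hx hW hW' hle' ht J (half_pos hl) fun x =>
      le_trans (mul_le_mul_of_nonneg_right (by linarith) (nsq_nonneg _)) (hlo x)
    have h2 := qq_split hA hA0 hl (hP.sub hR hle) hR (by rw [sub_mul, hle, hR.idem, sub_self]) hx hlo
    have h3 := qq_sub (A := A) (ν := l) hW hW' hle'
    rw [sub_add_cancel, trace_sub] at h2
    rw [ht] at h3
    have h4 : (qq A l R - qq A l W') / l ≤ (qq A l P - qq A l W) / l :=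
      div_le_div_of_nonneg_right (by linarith) hl.le
    simp only [Th, sub_div] at *
    linarith

namespace Sys

variable (S : Sys ι)

/-- The drop of the multiscale potential along a chain. -/
noncomputable def Dr (J : ℕ) (l : ℝ) (P : Matrix ι ι ℝ) (s t : ℕ) : ℝ :=
  Th S.A J l P + ∑ j ∈ range t, II J l (S.a (s + j)) - Th S.A J l (S.ch P s t)

variable {S} {P R : Matrix ι ι ℝ} {s t u : ℕ} {l : ℝ}

theorem Good.Th_step (h : S.Good s P) (hs : s < S.N) :
    ∀ (J : ℕ) {l : ℝ}, 0 < l → Th S.A J l (S.step s P) ≤ Th S.A J l P + II J l (S.a s)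
  | 0, _, _ => by simp [Th, II]
  | J + 1, l, hl => by
    have h1 := h.Th_step hs J (half_pos hl)
    have h2 := div_le_div_of_nonneg_right (h.qq_step (ν := l) hs) hl.le
    simp only [Th, II, add_div] at *
    linarith

theorem Good.Dr_succ (h : S.Good s P) (ht : s + t < S.N) (J : ℕ) (hl : 0 < l) :
    S.Dr J l P s t ≤ S.Dr J l P s (t + 1) := by
  have := (h.ch t ht.le).Th_step ht J hl
  simp only [Dr, sum_range_succ, Sys.ch]
  linarith

theorem Good.Dr_nonneg (h : S.Good s P) (J : ℕ) (hl : 0 < l) :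
    ∀ t, s + t ≤ S.N → 0 ≤ S.Dr J l P s t
  | 0, _ => by simp [Dr, Sys.ch]
  | t + 1, ht => (h.Dr_nonneg J hl t (by omega)).trans (h.Dr_succ (by omega) J hl)

omit [DecidableEq ι] in
theorem Dr_add (J : ℕ) (l : ℝ) (P : Matrix ι ι ℝ) (s t u : ℕ) :
    S.Dr J l P s (t + u) = S.Dr J l P s t + S.Dr J l (S.ch P s t) (s + t) u := by
  simp only [Dr, sum_range_add, ch_add, add_assoc]
  ring

omit [DecidableEq ι] in
theorem Dr_scale (J : ℕ) (l : ℝ) (P : Matrix ι ι ℝ) (s t : ℕ) :
    S.Dr (J + 1) l P s t = S.Dr 1 l P s t + S.Dr J (l / 2) P s t := by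
  simp only [Dr, Th, II, sum_add_distrib, add_zero]
  ring

theorem Good.Dr_top (hl : 0 < l) (h : S.Good s P) (h' : S.Good s R) (hle : P * R = R)
    (hx : (P - R) * S.A * R = 0) (hlo : Lo S.A (l / 2) (P - R)) (ht : s + t ≤ S.N)
    (hup : Up S.A l P) (ha : ∀ j < t, S.a (s + j) ≤ l) :
    l / 4 * S.phi P R s t ≤ S.Dr 1 l P s t := by
  have h1 := h.drop (half_pos hl).le h' hle hx hlo ht
  have h2 := qq_top S.symm S.pos hl h.1 hup
  have h3 := qq_le_Q0 (A := S.A) (ν := l) (h.ch t ht).1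
  have h4 : ∑ j ∈ range t, min (S.a (s + j)) l ^ 2 / l = (∑ j ∈ range t, S.a (s + j) ^ 2) / l := by
    rw [sum_div]
    exact sum_congr rfl fun j hj => by rw [min_eq_left (ha j (mem_range.1 hj))]
  simp only [Dr, Th, II, add_zero]
  rw [h4, ← add_div, ← sub_div, le_div_iff₀ hl]
  nlinarith

/-- The bound on the cost in the multiscale induction. -/
noncomputable def Bd (S : Sys ι) (J : ℕ) (l : ℝ) (P : Matrix ι ι ℝ) (s t : ℕ) : ℝ :=
  8 * S.Dr J l P s t + 2 * ∑ j ∈ range t, S.a (s + j) + l / 2 ^ J * t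

theorem Good.base (hl : 0 < l) (h : S.Good s P) (ht : s + t ≤ S.N) (hup : Up S.A l P)
    (ha : ∀ j < t, S.a (s + j) ≤ l) :
    Cov S.A (l + l * t) fun g => ∀ u ≤ t, nsq (S.ch P s u *ᵥ g) ≤ 1089 * trace P := by
  have h0 : S.Good s 0 := ⟨⟨by simp, by simp⟩, fun _ _ _ => zero_mulVec _⟩
  have := Cov.all (A := S.A) (c := fun _ => l / 2)
    (Q := fun u g => nsq (S.ch P s u *ᵥ g) ≤ 1089 * trace P) (t + 1) fun u hu => by
      have g1 := h.ch u (by omega)
      have := g1.window (R := 0) (T := 0) hl.le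
        ⟨⟨by simp, by simp⟩, fun _ _ _ => zero_mulVec _⟩ (mul_zero _) (by omega)
        ((h.up_ext hup u (by omega) fun j hj => ha j (by omega)).mono (h.ext_ch u (by omega)))
        (fun j hj => absurd hj (Nat.not_lt_zero _)) (fun v hv => by
          obtain rfl : v = 0 := by omega
          simp [phi, Sys.band, Sys.ch, mul_sub, g1.1.idem, fro])
      refine this.mono le_rfl fun g hg => ?_
      simpa [Sys.band, Sys.ch, h.trace_ch u (by omega)] using hg 0 le_rfl
  refine this.mono ?_ fun g hg u hu => hg u (by omega)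
  simp only [sum_const, card_range, nsmul_eq_mul, Nat.cast_add, Nat.cast_one]
  have : 0 ≤ l * t := by positivity
  linarith

theorem cover_aux (J : ℕ) : ∀ {l : ℝ} (t : ℕ) {s : ℕ} {P : Matrix ι ι ℝ}, 0 < l → S.Good s P →
    s + t ≤ S.N → Up S.A l P → (∀ j < t, S.a (s + j) ≤ l) →
    Cov S.A (l + S.Bd J l P s t) fun g => ∀ u ≤ t, nsq (S.ch P s u *ᵥ g) ≤ 1089 * trace P := by
  induction J with
  | zero =>
    intro l t s P hl h ht hup ha
    refine (h.base hl ht hup ha).mono ?_ fun _ hg => hg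
    have : 0 ≤ ∑ j ∈ range t, S.a (s + j) :=
      sum_nonneg fun j hj => a_nonneg (by have := mem_range.1 hj; omega)
    simp only [Bd, Dr, Th, II, sum_const_zero, pow_zero, div_one]
    linarith
  | succ J ihJ =>
    intro l t
    induction t using Nat.strong_induction_on with
    | _ t iht =>
    intro s P hl h ht hup ha
    obtain ⟨B, hB, hPB, hx, hlo, hup'⟩ := exists_split S.symm h.1 (half_pos hl)
    obtain ⟨R, rfl⟩ : ∃ R, B = P - R := ⟨P - B, by simp⟩
    rw [sub_sub_cancel] at hx hup'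
    have hR : IsP R := by simpa using h.1.sub hB hPB
    have hle : P * R = R := by
      rw [mul_sub, h.1.idem] at hPB
      exact sub_right_injective hPB
    have h' := h.of_le hR hle
    classical
    have hex : ∃ T, t ≤ T ∨ 1 / 2 < S.phi P R s (T + 1) ∨ l / 2 < S.a (s + T) := ⟨t, Or.inl le_rfl⟩
    obtain ⟨T, hT1, hT2⟩ : ∃ T, (t ≤ T ∨ 1 / 2 < S.phi P R s (T + 1) ∨ l / 2 < S.a (s + T)) ∧
        ∀ j < T, ¬ (t ≤ j ∨ 1 / 2 < S.phi P R s (j + 1) ∨ l / 2 < S.a (s + j)) :=
      ⟨Nat.find hex, Nat.find_spec hex, fun j hj => Nat.find_min hex hj⟩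
    simp only [not_or, not_le, not_lt] at hT2
    have hTt : T ≤ t := by
      rcases T with _ | T
      · omega
      · exact (hT2 T (by omega)).1
    have c1 := h.window hl.le h' hle (T := T) (by omega) hup (fun j hj => ha j (by omega))
      fun v hv => by
        rcases v with _ | v
        · simp [phi, mul_sub, (h.band (t := 0) h' hle (by omega)).1.1.idem, fro]
        · exact (hT2 v (by omega)).2.1
    have c2 := ihJ T (half_pos hl) h' (by omega) hup' fun j hj => (hT2 j hj).2.2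
    have d1 : S.Dr J (l / 2) R s T ≤ S.Dr J (l / 2) P s T := by
      have := Th_split S.symm S.pos h.1 hR hle hx (h.ch T (by omega)).1 (h'.ch T (by omega)).1
        (h.ch_mono h' hle T (by omega))
        (by rw [h.trace_ch T (by omega), h'.trace_ch T (by omega)]) J (half_pos hl) hlo
      simp only [Dr]
      linarith
    have e2 : l / 2 / 2 ^ J = l / 2 ^ (J + 1) := by rw [pow_succ]; field_simp
    have c3 : Cov S.A (l + (8 * S.Dr J (l / 2) P s T + 2 * ∑ j ∈ range T, S.a (s + j) +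
        l / 2 ^ (J + 1) * T)) fun g => ∀ u ≤ T, nsq (S.ch P s u *ᵥ g) ≤ 1089 * trace P := by
      refine (c1.and c2).mono (by simp only [Bd, e2]; linarith) ?_
      rintro g ⟨g1, g2⟩ u hu
      have a1 := g1 u hu
      have a2 := g2 u hu
      have k1 := (h.ch u (by omega)).1
      have k2 := (h'.ch u (by omega)).1
      rw [(h.band h' hle (by omega)).1.1.nsq_eq, Sys.band, sub_mulVec, dotProduct_sub,
        ← k1.nsq_eq, ← k2.nsq_eq] at a1
      linarith
    rcases hTt.eq_or_lt with rfl | hlt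
    · refine c3.mono ?_ fun _ hg => hg
      have := h.Dr_nonneg 1 hl T ht
      simp only [Bd, Dr_scale J]
      linarith
    obtain ⟨u, rfl⟩ : ∃ u, t = T + 1 + u := ⟨t - (T + 1), by omega⟩
    have g1 := h.ch (T + 1) (by omega)
    have c4 := iht u (by omega) hl g1 (by omega)
      ((h.up_ext hup _ (by omega) fun j hj => ha j (by omega)).mono (h.ext_ch _ (by omega)))
      fun j hj => by rw [add_assoc]; exact ha _ (by omega)
    refine (c3.and c4).mono ?_ ?_
    · have a0 := a_nonneg (S := S) (k := s + T) (by omega)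
      have a1 := h.Dr_succ (t := T) (by omega) J (half_pos hl)
      have a2 := h.Dr_nonneg 1 hl (T + 1) (by omega)
      have a3 := h.Dr_top hl h' hle hx hlo (t := T + 1) (by omega) hup fun j hj => ha j (by omega)
      have a4 : l ≤ 8 * S.Dr 1 l P s (T + 1) + 2 * S.a (s + T) := by
        rcases hT1 with h1 | h1 | h1
        · omega
        · nlinarith
        · linarith
      have a5 : 0 ≤ l / 2 ^ (J + 1) := by positivity
      simp only [Bd, Dr_add _ _ _ _ (T + 1) u, sum_range_add _ (T + 1) u, sum_range_succ _ T,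
        Dr_scale J l P, add_assoc s, Nat.cast_add, Nat.cast_one, mul_add]
      linarith
    · rintro g ⟨k1, k2⟩ v hv
      rcases le_or_gt v T with h1 | h1
      · exact k1 v h1
      · obtain ⟨w, rfl⟩ : ∃ w, v = T + 1 + w := ⟨v - (T + 1), by omega⟩
        rw [ch_add, ← h.trace_ch (T + 1) (by omega)]
        exact k2 w (by omega)

theorem cover (h : S.Good 0 P) (h0 : S.A * P = 0) (ha : ∑ j ∈ range S.N, S.a j ≤ 1) :
    Cov S.A 36 fun g => ∀ u ≤ S.N, nsq (S.ch P 0 u *ᵥ g) ≤ 1089 * trace P := by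
  have a0 : ∀ j ∈ range S.N, 0 ≤ S.a j := fun j hj => a_nonneg (mem_range.1 hj)
  have a1 : ∀ j ∈ range S.N, S.a j ≤ 1 := fun j hj => (single_le_sum a0 hj).trans ha
  refine (cover_aux S.N S.N one_pos h (by omega) (fun x => by
    rw [qf, mulVec_mulVec, h0, zero_mulVec, dotProduct_zero, one_mul]; exact nsq_nonneg _)
    fun j hj => by rw [zero_add]; exact a1 j (mem_range.2 hj)).mono ?_ fun _ hg => hg
  have b1 := Th_zero h.1 h0 S.N one_pos
  have b2 := Th_nonneg (A := S.A) (h.ch S.N (by omega)).1 S.N one_pos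
  have b3 : ∑ j ∈ range S.N, II S.N 1 (S.a j) ≤ 4 * ∑ j ∈ range S.N, S.a j := by
    rw [mul_sum]
    refine sum_le_sum fun j hj => (II_le (a0 j hj) _ one_pos (a1 j hj)).trans ?_
    have := sq_nonneg (S.a j)
    linarith
  have b4 : (1 : ℝ) / 2 ^ S.N * S.N ≤ 1 := by
    rw [one_div, inv_mul_le_iff₀ (by positivity), mul_one]
    exact_mod_cast Nat.lt_two_pow_self.le
  simp only [Bd, Dr, zero_add]
  linarith

end Sys

end Vale.Agent.P262
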