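import Vale.Agent.P262.Tilt

/-! A density supported on a family of quadratic constraints that is stable under shifts. -/

namespace Vale.Agent.P262

open Matrix MeasureTheory Finset

variable {ι : Type} [Fintype ι] {H : (ι → ℝ) → ℝ} {M : Matrix ι ι ℝ}

/-- A majorant of the squared norm of the image. -/
noncomputable def cc (M : Matrix ι ι ℝ) (x : ι → ℝ) : ℝ := ∑ i, chs (M i) x

theorem nsq_le_cc (M : Matrix ι ι ℝ) (x : ι → ℝ) : nsq (M *ᵥ x) ≤ cc M x := by
  rw [nsq_mulVec]
  exact sum_le_sum fun i _ => sq_le_chs _ _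

theorem Wt.cc (h : Wt H) (hM : fro M ≤ 1 / 8) : Integrable (fun x => gau x * H x * cc M x) ∧
    ∫ x, gau x * H x * cc M x ≤ 2 * fro M * ∫ x, gau x * H x := by
  have hi : ∀ i, nsq (M i) ≤ 1 := fun i => by
    have := single_le_sum (f := fun i => nsq (M i)) (fun i _ => nsq_nonneg _) (mem_univ i)
    rw [← fro_eq] at this
    linarith
  simp only [P262.cc, mul_sum]
  refine ⟨integrable_finsetSum _ fun i _ => (h.chs (hi i)).1, ?_⟩
  rw [integral_finsetSum _ fun i _ => (h.chs (hi i)).1, fro_eq, mul_sum, sum_mul]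
  exact sum_le_sum fun i _ => (h.chs (hi i)).2

theorem Wt.mul (h : Wt H) (M : Matrix ι ι ℝ) : Wt fun x => bump (M *ᵥ x) ^ 2 * H x where
  cont := ((continuous_bump.comp (continuous_const.matrix_mulVec continuous_id)).pow 2).mul h.cont
  nonneg x := mul_nonneg (sq_nonneg _) (h.nonneg x)
  le_one x := mul_le_one₀ (pow_le_one₀ (bump_nonneg _) (bump_le_one _)) (h.nonneg x) (h.le_one x)
  even x := by rw [h.even, mulVec_neg, bump_neg]
  logc x y := by
    rw [mul_mul_mul_comm, mul_pow (_ ^ 2), ← mul_pow, mulVec_add, mulVec_sub]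
    exact mul_le_mul (pow_le_pow_left₀ (mul_nonneg (bump_nonneg _) (bump_nonneg _))
      (bump_mul_le _ _) 2) (h.logc x y) (mul_nonneg (h.nonneg _) (h.nonneg _)) (sq_nonneg _)

theorem Wt.half (h : Wt H) (hM : fro M ≤ 1 / 8) :
    ∫ x, gau x * H x ≤ 2 * ∫ x, gau x * (bump (M *ᵥ x) ^ 2 * H x) := by
  obtain ⟨i1, h1⟩ := h.cc hM
  have h2 := integral_mono (h.integrable0.sub' (i1.const_mul 2)) (h.mul M).integrable0
    fun x => by
      have a1 := le_bump_sq (M *ᵥ x)
      have a2 := nsq_le_cc M x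
      have := mul_le_mul_of_nonneg_left (show 1 - 2 * P262.cc M x ≤ bump (M *ᵥ x) ^ 2 by linarith)
        (mul_nonneg (gau_pos x).le (h.nonneg x))
      simp only
      linarith
  rw [integral_sub h.integrable0 (i1.const_mul 2), integral_const_mul] at h2
  have a3 : 0 ≤ ∫ x, gau x * H x := integral_nonneg fun x => mul_nonneg (gau_pos _).le (h.nonneg x)
  nlinarith

theorem Wt.loss (h : Wt H) (hM : fro M ≤ 1 / 8) {y : ι → ℝ} (hy : nsq y ≤ 1) :
    Integrable (fun x => gau x * H x * (32 * P262.cc M x * nsq (M *ᵥ y) + 8 * nsq (M *ᵥ y) ^ 2)) ∧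
      ∫ x, gau x * H x * (32 * P262.cc M x * nsq (M *ᵥ y) + 8 * nsq (M *ᵥ y) ^ 2) ≤
        144 * (fro M * nsq (M *ᵥ y)) * ∫ x, gau x * (bump (M *ᵥ x) ^ 2 * H x) := by
  obtain ⟨i1, h1⟩ := h.cc hM
  have h2 := h.half hM
  have r0 := nsq_nonneg (M *ᵥ y)
  have r1 := (nsq_mulVec_le M y).trans (mul_le_of_le_one_right (fro_nonneg M) hy)
  generalize nsq (M *ᵥ y) = r at *
  have e : (fun x => gau x * H x * (32 * P262.cc M x * r + 8 * r ^ 2)) =
      fun x => 32 * r * (gau x * H x * P262.cc M x) + 8 * r ^ 2 * (gau x * H x) := by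
    funext x; ring
  rw [e]
  refine ⟨(i1.const_mul _).add (h.integrable0.const_mul _), ?_⟩
  rw [integral_add (i1.const_mul _) (h.integrable0.const_mul _), integral_const_mul,
    integral_const_mul]
  have a3 : 0 ≤ ∫ x, gau x * H x := integral_nonneg fun x => mul_nonneg (gau_pos _).le (h.nonneg x)
  have a4 := mul_le_mul_of_nonneg_left h1 r0
  have a5 := mul_le_mul_of_nonneg_left h2 (mul_nonneg (fro_nonneg M) r0)
  have a6 := mul_le_mul_of_nonneg_right (mul_le_mul_of_nonneg_right r1 r0) a3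
  nlinarith

variable {κ : Type} [DecidableEq κ] (m : κ → Matrix ι ι ℝ)

/-- The product of the bumps. -/
noncomputable def amp (s : Finset κ) (x : ι → ℝ) : ℝ := ∏ b ∈ s, bump (m b *ᵥ x)

omit [DecidableEq κ] in
theorem amp_nonneg (s : Finset κ) (x : ι → ℝ) : 0 ≤ amp m s x :=
  prod_nonneg fun _ _ => bump_nonneg _

omit [DecidableEq κ] in
theorem amp_le_one (s : Finset κ) (x : ι → ℝ) : amp m s x ≤ 1 :=
  prod_le_one (fun _ _ => bump_nonneg _) fun _ _ => bump_le_one _

omit [DecidableEq κ] in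
theorem continuous_amp (s : Finset κ) : Continuous (amp m s) :=
  continuous_finsetProd _ fun _ _ =>
    continuous_bump.comp (continuous_const.matrix_mulVec continuous_id)

theorem wt_amp (s : Finset κ) : Wt fun x => amp m s x ^ 2 := by
  induction s using Finset.induction_on with
  | empty => exact ⟨by simp [amp, continuous_const], fun _ => sq_nonneg _, by simp [amp], by simp [amp],
      by simp [amp]⟩
  | insert a s ha ih => simpa only [amp, prod_insert ha, mul_pow] using ih.mul (m a)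

theorem amp_pos (hm : ∀ b, fro (m b) ≤ 1 / 8) (s : Finset κ) :
    0 < ∫ x, gau x * amp m s x ^ 2 := by
  induction s using Finset.induction_on with
  | empty => simpa [amp, gau] using integral_exp_pos (integrable_gau (ι := ι))
  | insert a s ha ih =>
    have := (wt_amp m s).half (hm a)
    simp only [amp, prod_insert ha, mul_pow] at *
    linarith

theorem prod_sub_le {a b : κ → ℝ} (h0 : ∀ i, 0 ≤ b i) (h : ∀ i, b i ≤ a i) (s : Finset κ) :
    ∏ i ∈ s, a i - ∏ i ∈ s, b i ≤ ∑ i ∈ s, (∏ j ∈ s.erase i, a j) * (a i - b i) := by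
  induction s using Finset.induction_on with
  | empty => simp
  | insert c s hc ih =>
    rw [prod_insert hc, prod_insert hc, sum_insert hc, erase_insert hc]
    have e : ∑ i ∈ s, (∏ j ∈ (insert c s).erase i, a j) * (a i - b i) =
        a c * ∑ i ∈ s, (∏ j ∈ s.erase i, a j) * (a i - b i) := by
      rw [mul_sum]
      refine sum_congr rfl fun i hi => ?_
      rw [erase_insert_of_ne (by rintro rfl; exact hc hi),
        prod_insert fun h => hc (mem_of_mem_erase h), mul_assoc]
    have a1 := mul_le_mul_of_nonneg_left ih ((h0 c).trans (h c))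
    have a2 : ∏ i ∈ s, b i ≤ ∏ i ∈ s, a i := prod_le_prod (fun i _ => h0 i) fun i _ => h i
    have a3 := mul_le_mul_of_nonneg_left a2 (sub_nonneg.2 (h c))
    rw [e]
    linarith

omit [DecidableEq κ] in
theorem integrable_cross (s : Finset κ) (y : ι → ℝ) :
    Integrable fun x => gau x * (amp m s (x + y) * amp m s (x - y)) :=
  integrable_gau.mul_bdd (((continuous_amp m s).comp (continuous_id.add continuous_const)).mul
    ((continuous_amp m s).comp (continuous_id.sub continuous_const))).aestronglyMeasurable (c := 1)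
    (.of_forall fun x => by
      rw [Real.norm_of_nonneg (mul_nonneg (amp_nonneg _ _ _) (amp_nonneg _ _ _))]
      exact mul_le_one₀ (amp_le_one _ _ _) (amp_nonneg _ _ _) (amp_le_one _ _ _))

theorem cross_ge (hm : ∀ b, fro (m b) ≤ 1 / 8) (s : Finset κ) {y : ι → ℝ} (hy : nsq y ≤ 1) :
    (∫ x, gau x * amp m s x ^ 2) - ∫ x, gau x * (amp m s (x + y) * amp m s (x - y)) ≤
      144 * (∑ b ∈ s, fro (m b) * nsq (m b *ᵥ y)) * ∫ x, gau x * amp m s x ^ 2 := by
  have hl := fun b => (wt_amp m (s.erase b)).loss (hm b) hy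
  rw [← integral_sub (wt_amp m s).integrable0 (integrable_cross m s y)]
  refine (integral_mono ((wt_amp m s).integrable0.sub' (integrable_cross m s y))
    (integrable_finsetSum s fun b _ => (hl b).1) fun x => ?_).trans ?_
  · have a1 := prod_sub_le (a := fun b => bump (m b *ᵥ x) ^ 2)
      (b := fun b => bump (m b *ᵥ x + m b *ᵥ y) * bump (m b *ᵥ x - m b *ᵥ y))
      (fun b => mul_nonneg (bump_nonneg _) (bump_nonneg _)) (fun b => bump_mul_le _ _) s
    have a2 := mul_le_mul_of_nonneg_left a1 (gau_pos x).le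
    simp only [amp, mulVec_add, mulVec_sub, ← prod_pow, ← prod_mul_distrib, ← mul_sub]
    refine a2.trans ?_
    rw [mul_sum]
    refine sum_le_sum fun b _ => ?_
    rw [← mul_assoc]
    refine mul_le_mul_of_nonneg_left ((bump_sq_sub _ _).trans ?_)
      (mul_nonneg (gau_pos x).le (prod_nonneg fun _ _ => sq_nonneg _))
    have := mul_le_mul_of_nonneg_right (nsq_le_cc (m b) x) (nsq_nonneg (m b *ᵥ y))
    linarith
  · rw [integral_finsetSum s fun b _ => (hl b).1, mul_sum, sum_mul]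
    refine sum_le_sum fun b hb => (hl b).2.trans (le_of_eq ?_)
    simp only [amp, ← mul_prod_erase s _ hb, mul_pow]

theorem abs_sq_sub_le {a b η : ℝ} (hη : 0 < η) :
    |a ^ 2 - b ^ 2| ≤ (η + (2 * η)⁻¹) * a ^ 2 + (η + (2 * η)⁻¹) * b ^ 2 - η⁻¹ * (a * b) := by
  have e : (η + (2 * η)⁻¹) * a ^ 2 + (η + (2 * η)⁻¹) * b ^ 2 - η⁻¹ * (a * b) =
      ((a - b) ^ 2 + 2 * η ^ 2 * (a ^ 2 + b ^ 2)) / (2 * η) := by field_simp; ring
  rw [e, le_div_iff₀ (by positivity), ← abs_of_pos (show 0 < 2 * η by positivity), ← abs_mul,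
    abs_le]
  constructor
  · nlinarith [sq_nonneg (a - b + η * (a + b)), sq_nonneg (η * (a - b))]
  · nlinarith [sq_nonneg (a - b - η * (a + b)), sq_nonneg (η * (a - b))]

theorem tv_le (hm : ∀ b, fro (m b) ≤ 1 / 8) (s : Finset κ) {y : ι → ℝ} (hy : nsq y ≤ 1) {η : ℝ}
    (hη : 0 < η) :
    ∫ x, |gau (x + y) * amp m s (x + y) ^ 2 - gau (x - y) * amp m s (x - y) ^ 2| ≤
      (2 * η + (nsq y / 2 + 144 * ∑ b ∈ s, fro (m b) * nsq (m b *ᵥ y)) / η) *
        ∫ x, gau x * amp m s x ^ 2 := by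
  have i0 := (wt_amp m s).integrable0
  have i1 := (i0.comp_add_right y).const_mul (η + (2 * η)⁻¹)
  have i2 := (i0.comp_sub_right y).const_mul (η + (2 * η)⁻¹)
  have i3 := (integrable_cross m s y).const_mul (η⁻¹ * gau y)
  refine (integral_mono ((i0.comp_add_right y).sub' (i0.comp_sub_right y)).abs
    ((i1.fun_add i2).sub' i3) fun x => ?_).trans ?_
  · have a1 := abs_sq_sub_le (a := √(gau (x + y)) * amp m s (x + y))
      (b := √(gau (x - y)) * amp m s (x - y)) hη
    rw [mul_pow, mul_pow, Real.sq_sqrt (gau_pos _).le, Real.sq_sqrt (gau_pos _).le,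
      mul_mul_mul_comm, ← Real.sqrt_mul (gau_pos _).le, gau_mul, ← mul_pow (gau x),
      Real.sqrt_sq (mul_pos (gau_pos _) (gau_pos _)).le] at a1
    refine a1.trans (le_of_eq ?_)
    ring
  · rw [integral_sub (i1.fun_add i2) i3, integral_add i1 i2, integral_const_mul,
      integral_const_mul, integral_const_mul,
      integral_add_right_eq_self (fun x => gau x * amp m s x ^ 2),
      integral_sub_right_eq_self (fun x => gau x * amp m s x ^ 2)]
    have a1 := cross_ge m hm s hy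
    have a2 := (amp_pos m hm s).le
    have a3 : 0 ≤ ∑ b ∈ s, fro (m b) * nsq (m b *ᵥ y) :=
      sum_nonneg fun b _ => mul_nonneg (fro_nonneg _) (nsq_nonneg _)
    have a4 : 1 - nsq y / 2 ≤ gau y := by
      have := Real.add_one_le_exp (-(nsq y / 2))
      rw [gau]; linarith
    have a5 := gau_le_one y
    have a6 := gau_pos y
    generalize ∫ x, gau x * amp m s x ^ 2 = Z at *
    generalize ∫ x, gau x * (amp m s (x + y) * amp m s (x - y)) = X at *
    generalize ∑ b ∈ s, fro (m b) * nsq (m b *ᵥ y) = c at *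
    have a7 : Z - gau y * X ≤ (nsq y / 2 + 144 * c) * Z := by
      nlinarith [mul_le_mul_of_nonneg_left a1 a6.le, mul_le_mul_of_nonneg_right a4 a2,
        mul_le_mul_of_nonneg_right a5 (mul_nonneg a3 a2)]
    have a8 := mul_le_mul_of_nonneg_left a7 (inv_pos.2 hη).le
    have e : (2 * η)⁻¹ = η⁻¹ / 2 := by field_simp
    rw [e, div_eq_mul_inv _ η]
    linarith

theorem gauss (L : List (Matrix ι ι ℝ)) (hL : ∀ M ∈ L, fro M ≤ 1 / 8) :
    ∃ f : (ι → ℝ) → ℝ, Integrable f ∧ (∀ x, 0 ≤ f x) ∧ ∫ x, f x = 1 ∧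
      (∀ x, f x ≠ 0 → ∀ M ∈ L, nsq (M *ᵥ x) ≤ 1) ∧ ∀ (y : ι → ℝ) (η : ℝ), nsq y ≤ 1 → 0 < η →
        ∫ x, |f (x + y) - f (x - y)| ≤
          2 * η + (nsq y / 2 + 144 * (L.map fun M => fro M * nsq (M *ᵥ y)).sum) / η := by
  have hm : ∀ b, fro (L.get b) ≤ 1 / 8 := fun b => hL _ (List.get_mem L b)
  have hZ := amp_pos L.get hm univ
  refine ⟨fun x => (∫ x, gau x * amp L.get univ x ^ 2)⁻¹ * (gau x * amp L.get univ x ^ 2),
    (wt_amp _ _).integrable0.const_mul _,
    fun x => mul_nonneg (inv_pos.2 hZ).le (mul_nonneg (gau_pos x).le (sq_nonneg _)),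
    by rw [integral_const_mul, inv_mul_cancel₀ hZ.ne'], fun x hx M hM => ?_, fun y η hy hη => ?_⟩
  · obtain ⟨b, rfl⟩ := List.get_of_mem hM
    refine nsq_le_of_bump fun h0 => hx ?_
    have : amp L.get univ x = 0 := prod_eq_zero (mem_univ b) h0
    simp [this]
  · simp only [← mul_sub, abs_mul, abs_of_pos (inv_pos.2 hZ), integral_const_mul]
    rw [inv_mul_le_iff₀ hZ, mul_comm, ← Fin.sum_univ_fun_getElem]
    exact tv_le L.get hm univ hy hη

end Vale.Agent.P262
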