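import Mathlib

/-! Signs from shift stable densities: the lifting argument and a minimax step. -/

namespace Vale.Agent.P262

open MeasureTheory Finset

variable {ι : Type} [Fintype ι]

/-- Total variation between two opposite shifts. -/
noncomputable def tv (f : (ι → ℝ) → ℝ) (u : ι → ℝ) : ℝ := ∫ x, |f (x + u) - f (x - u)|

/-- Membership in a dilate of a set. -/
def Cn (K : Set (ι → ℝ)) (p : ℝ) (z : ι → ℝ) : Prop := ∃ x, (0 < p → x ∈ K) ∧ z = p • x

omit [Fintype ι] in
theorem Cn.add {K : Set (ι → ℝ)} (hK : Convex ℝ K) {p q : ℝ} {x y : ι → ℝ} (hp : 0 ≤ p)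
    (hq : 0 ≤ q) (h1 : 0 < p → x ∈ K) (h2 : 0 < q → y ∈ K) : Cn K (p + q) (p • x + q • y) := by
  rcases hp.eq_or_lt with rfl | hp
  · exact ⟨y, by simpa using h2, by simp⟩
  rcases hq.eq_or_lt with rfl | hq
  · exact ⟨x, by simpa using h1, by simp⟩
  have hs := add_pos hp hq
  refine ⟨(p / (p + q)) • x + (q / (p + q)) • y, fun _ => hK (h1 hp) (h2 hq) (by positivity)
    (by positivity) (by field_simp), ?_⟩
  rw [smul_add, smul_smul, smul_smul, mul_div_cancel₀ _ hs.ne', mul_div_cancel₀ _ hs.ne']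

theorem abs_add_le_of {x y c : ℝ} (h1 : x + y ≤ c) (h2 : x - y ≤ c) (h3 : -x + y ≤ c)
    (h4 : -x - y ≤ c) : |x| + |y| ≤ c := by
  rcases abs_cases x with ⟨h, -⟩ | ⟨h, -⟩ <;> rcases abs_cases y with ⟨h', -⟩ | ⟨h', -⟩ <;> linarith

theorem max_min_le (a b a' b' : ℝ) :
    |max a b / 2 - max a' b' / 2| + |min a b / 2 - min a' b' / 2| ≤ (|a - a'| + |b - b'|) / 2 := by
  have h1 := le_abs_self (a - a')
  have h2 := neg_abs_le (a - a')
  have h3 := le_abs_self (b - b')
  have h4 := neg_abs_le (b - b')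
  rcases le_total a b with h | h <;> rcases le_total a' b' with h' | h' <;>
    simp only [max_eq_left, max_eq_right, min_eq_left, min_eq_right, h, h'] <;>
    refine abs_add_le_of ?_ ?_ ?_ ?_ <;> linarith

/-- The two lifts of a function along a direction. -/
noncomputable def lf (f : (ι → ℝ) → ℝ) (v : ι → ℝ) : Bool → (ι → ℝ) → ℝ
  | true, x => max (f (x + v)) (f (x - v)) / 2
  | false, x => min (f (x + v)) (f (x - v)) / 2

/-- The two lifts of a set along a direction. -/
def lK (K : Set (ι → ℝ)) (v : ι → ℝ) : Bool → Set (ι → ℝ)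
  | true => {x | ∃ t : ℝ, |t| ≤ 1 ∧ x + t • v ∈ K}
  | false => {x | x + v ∈ K ∧ x - v ∈ K}

variable {f : (ι → ℝ) → ℝ} {K : Set (ι → ℝ)} (v : ι → ℝ)

theorem lf_int (hf : Integrable f) : ∀ b, Integrable (lf f v b)
  | true => ((hf.comp_add_right v).sup (hf.comp_sub_right v)).div_const 2
  | false => ((hf.comp_add_right v).inf (hf.comp_sub_right v)).div_const 2

omit [Fintype ι] in
theorem lf_nonneg (hf : ∀ x, 0 ≤ f x) : ∀ b x, 0 ≤ lf f v b x
  | true, _ => div_nonneg (le_max_of_le_left (hf _)) zero_le_two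
  | false, _ => div_nonneg (le_min (hf _) (hf _)) zero_le_two

theorem lf_mass (hf : Integrable f) : (∫ x, lf f v true x) + ∫ x, lf f v false x = ∫ x, f x := by
  rw [← integral_add (lf_int v hf true) (lf_int v hf false)]
  simp only [lf, ← add_div, max_add_min]
  rw [integral_div, integral_add (hf.comp_add_right v) (hf.comp_sub_right v),
    integral_add_right_eq_self, integral_sub_right_eq_self]
  ring

theorem tv_int (hf : Integrable f) : Integrable fun x => |f (x + v) - f (x - v)| :=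
  ((hf.comp_add_right v).sub' (hf.comp_sub_right v)).abs

theorem lf_low (hf : Integrable f) : ∫ x, lf f v false x = (∫ x, f x) / 2 - tv f v / 4 := by
  have h := lf_mass v hf
  have : (∫ x, lf f v true x) - ∫ x, lf f v false x = tv f v / 2 := by
    rw [← integral_sub (lf_int v hf true) (lf_int v hf false)]
    simp only [lf, ← sub_div, max_sub_min_eq_abs']
    rw [integral_div, tv]
  linarith

theorem lf_tv (hf : Integrable f) (u : ι → ℝ) :
    tv (lf f v true) u + tv (lf f v false) u ≤ tv f u := by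
  have i1 := (tv_int u hf).comp_add_right v
  have i2 := (tv_int u hf).comp_sub_right v
  rw [tv, tv, ← integral_add (tv_int u (lf_int v hf _)) (tv_int u (lf_int v hf _))]
  refine (integral_mono ((tv_int u (lf_int v hf _)).fun_add (tv_int u (lf_int v hf _)))
    ((i1.fun_add i2).div_const 2) fun x => ?_).trans (le_of_eq ?_)
  · simp only [lf]
    rw [add_right_comm x v, add_sub_right_comm x v u, ← add_sub_right_comm x u v,
      sub_right_comm x v]
    exact max_min_le _ _ _ _
  · rw [integral_div, integral_add i1 i2,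
      integral_add_right_eq_self (fun x => |f (x + u) - f (x - u)|),
      integral_sub_right_eq_self (fun x => |f (x + u) - f (x - u)|), tv]
    ring

omit [Fintype ι] in
theorem lK_convex (hK : Convex ℝ K) : ∀ b, Convex ℝ (lK K v b)
  | true => by
    rintro x ⟨s, hs, hx⟩ y ⟨t, ht, hy⟩ a b ha hb hab
    refine ⟨a * s + b * t, ?_, ?_⟩
    · rw [abs_le] at *
      constructor <;> nlinarith
    · convert hK hx hy ha hb hab using 1
      module
  | false => by
    rintro x ⟨hx, hx'⟩ y ⟨hy, hy'⟩ a b ha hb hab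
    obtain rfl : b = 1 - a := by linarith
    constructor
    · convert hK hx hy ha hb hab using 1
      module
    · convert hK hx' hy' ha hb hab using 1
      module

omit [Fintype ι] in
theorem lK_symm (hK : ∀ x ∈ K, -x ∈ K) : ∀ b, ∀ x ∈ lK K v b, -x ∈ lK K v b
  | true, x, ⟨t, ht, hx⟩ => ⟨-t, by rwa [abs_neg], by convert hK _ hx using 1; module⟩
  | false, x, ⟨h1, h2⟩ => ⟨by convert hK _ h2 using 1; module, by convert hK _ h1 using 1; module⟩

omit [Fintype ι] in
theorem lK_supp (h0 : ∀ x, 0 ≤ f x) (hK : ∀ x, f x ≠ 0 → x ∈ K) :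
    ∀ b x, lf f v b x ≠ 0 → x ∈ lK K v b
  | true, x, h => by
    by_cases h1 : f (x + v) = 0
    · exact ⟨-1, by simp, hK _ fun h2 => h (by
        rw [neg_one_smul, ← sub_eq_add_neg] at h2; simp [lf, h1, h2])⟩
    · exact ⟨1, by simp, hK _ (by rwa [one_smul])⟩
  | false, x, h => ⟨hK _ fun h1 => h (by simp [lf, h1, h0]), hK _ fun h1 => h (by simp [lf, h1, h0])⟩

theorem lift (w : ℕ → ι → ℝ) (c : ℕ → (ι → ℝ) → ℝ) (hc : ∀ k y, |c k y| ≤ 1 / 2) (n : ℕ) :
    ∀ (Ω : Type) [Fintype Ω] (f : Ω → (ι → ℝ) → ℝ) (K : Ω → Set (ι → ℝ)),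
      (∀ o, Integrable (f o)) → (∀ o x, 0 ≤ f o x) → ∑ o, ∫ x, f o x = 1 →
      (∀ o, Convex ℝ (K o)) → (∀ o, ∀ x ∈ K o, -x ∈ K o) → (∀ o x, f o x ≠ 0 → x ∈ K o) →
      (∀ j < n, ∑ o, tv (f o) ((3 : ℝ) • w j) ≤ 1 / 3) →
      ∃ (ε : ℕ → ℝ) (y : ℕ → ι → ℝ), y 0 = 0 ∧
        (∀ k < n, (ε k = 1 ∨ ε k = -1) ∧ y (k + 1) = y k + (c k (y k) + ε k) • w k) ∧
        ∃ z : Ω → ι → ℝ, (∀ o, Cn (K o) (∫ x, f o x) (z o)) ∧ y n = ∑ o, z o := by
  induction n with
  | zero =>
    intro Ω _ f K hi h0 h1 hK hs hu _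
    refine ⟨0, 0, rfl, fun k hk => absurd hk (Nat.not_lt_zero _), 0, fun o => ⟨0, fun hp => ?_,
      by simp⟩, by simp⟩
    obtain ⟨x, hx⟩ : ∃ x, f o x ≠ 0 := by
      by_contra hc
      push Not at hc
      simp [hc] at hp
    have := hK o (hu o x hx) (hs o x (hu o x hx)) (a := 1 / 2) (b := 1 / 2) (by norm_num)
      (by norm_num) (by norm_num)
    simpa using this
  | succ n ih =>
    intro Ω _ f K hi h0 h1 hK hs hu ht
    set v := (3 : ℝ) • w n with hv
    obtain ⟨ε, y, y0, hy, z, hz, hyz⟩ := ih (Ω × Bool) (fun o => lf (f o.1) v o.2)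
      (fun o => lK (K o.1) v o.2) (fun o => lf_int v (hi _) _) (fun o => lf_nonneg v (h0 _) _)
      (by simp only [Fintype.sum_prod_type, Fintype.sum_bool, lf_mass v (hi _), h1])
      (fun o => lK_convex v (hK _) _) (fun o => lK_symm v (hs _) _)
      (fun o => lK_supp v (h0 _) (hu _) _) fun j hj => by
        simp only [Fintype.sum_prod_type, Fintype.sum_bool]
        exact (sum_le_sum fun o _ => lf_tv v (hi o) _).trans (ht j (by omega))
    choose x hx hzx using hz
    have p0 : ∀ o b, 0 ≤ ∫ x, lf (f o) v b x := fun o b => integral_nonneg (lf_nonneg v (h0 o) b)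
    have : ∀ o, ∃ t : ℝ, |t| ≤ 1 ∧ (0 < ∫ x, lf (f o) v true x → x (o, true) + t • v ∈ K o) := by
      intro o
      by_cases hp : 0 < ∫ x, lf (f o) v true x
      · obtain ⟨t, h1, h2⟩ := hx (o, true) hp
        exact ⟨t, h1, fun _ => h2⟩
      · exact ⟨0, by simp, fun h => absurd h hp⟩
    choose t ht1 ht2 using this
    set b := ∑ o, ∫ x, lf (f o) v false x with hb
    set τ := ∑ o, (∫ x, lf (f o) v true x) * t o with hτ
    have b1 : 5 / 12 ≤ b := by
      have := ht n (by omega)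
      simp only [hb, lf_low v (hi _), sum_sub_distrib, ← sum_div, h1]
      linarith
    have b2 : |τ| ≤ 1 - b := by
      refine (abs_sum_le_sum_abs _ _).trans ?_
      rw [le_sub_iff_add_le, ← h1, hb, ← sum_add_distrib]
      refine sum_le_sum fun o _ => ?_
      rw [abs_mul, abs_of_nonneg (p0 o _), ← lf_mass v (hi o)]
      have := mul_le_mul_of_nonneg_left (ht1 o) (p0 o true)
      linarith
    obtain ⟨e, he, hu'⟩ : ∃ e : ℝ, (e = 1 ∨ e = -1) ∧ |(c n (y n) + e) / 3 - τ| ≤ b := by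
      have h2 := abs_le.1 (hc n (y n))
      have h3 := abs_le.1 b2
      rcases le_total ((c n (y n) + 1) / 3 - τ) b with h | h
      · exact ⟨1, Or.inl rfl, abs_le.2 ⟨by linarith, h⟩⟩
      · exact ⟨-1, Or.inr rfl, abs_le.2 ⟨by linarith, by linarith⟩⟩
    have b0 : 0 < b := by linarith
    set u := ((c n (y n) + e) / 3 - τ) / b with hud
    have u1 : |u| ≤ 1 := by rwa [hud, abs_div, abs_of_pos b0, div_le_one b0]
    refine ⟨Function.update ε n e, Function.update y (n + 1) (y n + (c n (y n) + e) • w n),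
      by rw [Function.update_of_ne (by omega), y0], fun k hk => ?_,
      fun o => (∫ x, lf (f o) v true x) • (x (o, true) + t o • v) +
        (∫ x, lf (f o) v false x) • (x (o, false) + u • v), fun o => ?_, ?_⟩
    · rcases Nat.lt_succ_iff_lt_or_eq.1 hk with hk | rfl
      · rw [Function.update_of_ne (by omega), Function.update_of_ne (by omega),
          Function.update_of_ne (by omega)]
        exact hy k hk
      · rw [Function.update_self, Function.update_self, Function.update_of_ne (by omega)]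
        exact ⟨he, rfl⟩
    · rw [← lf_mass v (hi o)]
      refine Cn.add (hK o) (p0 o _) (p0 o _) (ht2 o) fun hp => ?_
      obtain ⟨h2, h3⟩ := hx (o, false) hp
      have h4 := abs_le.1 u1
      convert hK o h2 h3 (a := (1 + u) / 2) (b := (1 - u) / 2) (by linarith) (by linarith)
        (by ring) using 1
      module
    · have e1 : (c n (y n) + e) • w n = (τ + b * u) • v := by
        rw [hud, mul_div_cancel₀ _ b0.ne', hv, smul_smul]
        congr 1
        ring
      rw [Function.update_self, e1, hyz, add_smul, hτ, hb, sum_mul, sum_smul, sum_smul,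
        Fintype.sum_prod_type, ← sum_add_distrib, ← sum_add_distrib]
      refine sum_congr rfl fun o _ => ?_
      rw [Fintype.sum_bool, hzx, hzx]
      module

/-- Probability densities supported in a set. -/
def Dens (K : Set (ι → ℝ)) (f : (ι → ℝ) → ℝ) : Prop :=
  Integrable f ∧ (∀ x, 0 ≤ f x) ∧ ∫ x, f x = 1 ∧ ∀ x, f x ≠ 0 → x ∈ K

theorem minimax {κ : Type} [Fintype κ] (u : κ → ι → ℝ) {δ : ℝ}
    (H : ∀ a : κ → ℝ, (∀ j, 0 ≤ a j) → ∑ j, a j ≤ 1 → ∃ f, Dens K f ∧ ∑ j, a j * tv f (u j) < δ) :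
    ∃ f, Dens K f ∧ ∀ j, tv f (u j) ≤ δ := by
  classical
  by_contra hc
  push Not at hc
  obtain ⟨φ, s, h1, h2⟩ := geometric_hahn_banach_open (s := Set.pi Set.univ fun _ : κ => Set.Iio δ)
    (t := {x | ∃ f, Dens K f ∧ ∀ j, tv f (u j) ≤ x j})
    (convex_pi fun _ _ => convex_Iio _) (isOpen_set_pi Set.finite_univ fun _ _ => isOpen_Iio)
    (by
      rintro x ⟨f, hf, hx⟩ y ⟨g, hg, hy⟩ a b ha hb hab
      refine ⟨fun z => a * f z + b * g z, ⟨(hf.1.const_mul a).add (hg.1.const_mul b),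
        fun z => add_nonneg (mul_nonneg ha (hf.2.1 z)) (mul_nonneg hb (hg.2.1 z)), ?_,
        fun z hz => ?_⟩, fun j => ?_⟩
      · rw [integral_add (hf.1.const_mul a) (hg.1.const_mul b), integral_const_mul,
          integral_const_mul, hf.2.2.1, hg.2.2.1]
        linarith
      · by_cases h : f z = 0
        · exact hg.2.2.2 z fun h' => hz (by simp [h, h'])
        · exact hf.2.2.2 z h
      · have i1 := (tv_int (u j) hf.1).const_mul a
        have i2 := (tv_int (u j) hg.1).const_mul b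
        refine (integral_mono (tv_int (u j) ((hf.1.const_mul a).fun_add (hg.1.const_mul b)))
          (i1.fun_add i2) fun z => ?_).trans ?_
        · simp only
          rw [← abs_of_nonneg ha, ← abs_of_nonneg hb, ← abs_mul, ← abs_mul, abs_of_nonneg ha,
            abs_of_nonneg hb]
          refine le_trans (le_of_eq (congrArg _ (by ring))) (abs_add_le _ _)
        · rw [integral_add i1 i2, integral_const_mul, integral_const_mul]
          exact add_le_add (mul_le_mul_of_nonneg_left (hx j) ha)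
            (mul_le_mul_of_nonneg_left (hy j) hb))
    (Set.disjoint_left.2 fun x hx ⟨f, hf, h⟩ => by
      obtain ⟨j, hj⟩ := hc f hf
      exact absurd ((hj.trans_le (h j)).trans (hx j trivial)) (lt_irrefl _))
  have e : ∀ x, φ x = ∑ j, φ (Pi.single j 1) * x j := fun x => by
    conv_lhs => rw [pi_eq_sum_univ' x]
    simp [map_sum, mul_comm]
  set a : κ → ℝ := fun j => φ (Pi.single j 1) with ha
  have a0 : ∀ j, 0 ≤ a j := fun j => by
    by_contra hj
    push Not at hj
    have h3 := h1 (fun _ => δ - 1) fun _ _ => by simp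
    have h4 : 0 ≤ (s - φ fun _ => δ - 1) / -a j := div_nonneg (by linarith) (by linarith)
    have h5 := h1 ((fun _ => δ - 1) - ((s - φ fun _ => δ - 1) / -a j) • Pi.single j 1) fun i _ => by
      have : 0 ≤ (s - φ fun _ => δ - 1) / -a j * (Pi.single j 1 : κ → ℝ) i :=
        mul_nonneg h4 (by rw [Pi.single_apply]; split_ifs <;> norm_num)
      simp only [Set.mem_Iio, Pi.sub_apply, Pi.smul_apply, smul_eq_mul]
      linarith
    rw [map_sub, map_smul, smul_eq_mul] at h5
    have h6 : (s - φ fun _ => δ - 1) / -a j * a j = -(s - φ fun _ => δ - 1) := by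
      have := hj.ne
      field_simp
    linarith
  have a1 : δ * ∑ j, a j ≤ s := by
    refine le_of_forall_lt_imp_le_of_dense fun r hr => ?_
    have hS : 0 ≤ ∑ j, a j := sum_nonneg fun j _ => a0 j
    have h3 := h1 (fun _ => δ - (δ * ∑ j, a j - r) / (∑ j, a j + 1)) fun _ _ => by
      have : 0 < (δ * ∑ j, a j - r) / (∑ j, a j + 1) := div_pos (by linarith) (by linarith)
      simp only [Set.mem_Iio]
      linarith
    rw [e, ← sum_mul] at h3
    have h4 : (∑ j, a j) * ((δ * ∑ j, a j - r) / (∑ j, a j + 1)) ≤ δ * ∑ j, a j - r := by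
      rw [← mul_div_assoc, div_le_iff₀ (by linarith)]
      nlinarith
    linarith
  rcases (sum_nonneg fun j (_ : j ∈ univ) => a0 j).eq_or_lt with hS | hS
  · obtain ⟨f, hf, -⟩ := H 0 (fun _ => le_rfl) (by simp)
    have h3 := h1 (fun _ => δ - 1) fun _ _ => by simp
    have h4 := h2 _ ⟨f, hf, fun _ => le_rfl⟩
    have h5 := (sum_eq_zero_iff_of_nonneg fun j _ => a0 j).1 hS.symm
    rw [e, sum_eq_zero fun j hj => mul_eq_zero_of_left (h5 j hj) _] at h3 h4
    linarith
  · obtain ⟨f, hf, h3⟩ := H (fun j => a j / ∑ j, a j) (fun j => div_nonneg (a0 j) hS.le)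
      (by rw [← sum_div, div_self hS.ne'])
    have h4 := h2 _ ⟨f, hf, fun _ => le_rfl⟩
    simp only [div_mul_eq_mul_div, ← sum_div] at h3
    rw [div_lt_iff₀ hS] at h3
    rw [e] at h4
    linarith

theorem signs (hK : Convex ℝ K) (hs : ∀ x ∈ K, -x ∈ K) (N : ℕ) (w : ℕ → ι → ℝ)
    (c : ℕ → (ι → ℝ) → ℝ) (hc : ∀ k y, |c k y| ≤ 1 / 2)
    (H : ∀ a : Fin N → ℝ, (∀ j, 0 ≤ a j) → ∑ j, a j ≤ 1 →
      ∃ f, Dens K f ∧ ∑ j, a j * tv f ((3 : ℝ) • w j) < 1 / 3) :
    ∃ (ε : ℕ → ℝ) (y : ℕ → ι → ℝ), y 0 = 0 ∧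
      (∀ k < N, (ε k = 1 ∨ ε k = -1) ∧ y (k + 1) = y k + (c k (y k) + ε k) • w k) ∧ y N ∈ K := by
  obtain ⟨f, hf, ht⟩ := minimax (fun j : Fin N => (3 : ℝ) • w j) H
  obtain ⟨ε, y, y0, hy, z, hz, hyz⟩ := lift w c hc N Unit (fun _ => f) (fun _ => K) (fun _ => hf.1)
    (fun _ => hf.2.1) (by simpa using hf.2.2.1) (fun _ => hK) (fun _ => hs) (fun _ => hf.2.2.2)
    fun j hj => by simpa using ht ⟨j, hj⟩
  obtain ⟨x, hx, hzx⟩ := hz ()
  rw [hf.2.2.1] at hx hzx
  exact ⟨ε, y, y0, hy, by simpa [hyz, hzx] using hx one_pos⟩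

end Vale.Agent.P262
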