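import Vale.Agent.P262.Cover
import Vale.Agent.P262.Gauss
import Vale.Agent.P262.Lift

/-! The feedback system: isometric dilation of a contracting walk. -/

namespace Vale.Agent.P262

open Matrix Finset

/-- An isometric embedding, orthonormal fresh directions and the vectors to be signed. -/
structure Fr (ι δ : Type) [Fintype ι] [Fintype δ] [DecidableEq δ] where
  N : ℕ
  J0 : Matrix ι δ ℝ
  e : ℕ → ι → ℝ
  v : ℕ → δ → ℝ
  iso : J0ᵀ * J0 = 1
  unit : ∀ k < N, nsq (e k) = 1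
  orth : ∀ k < N, ∀ j < N, k ≠ j → e k ⬝ᵥ e j = 0
  fresh : ∀ k < N, J0ᵀ *ᵥ e k = 0
  small : ∀ k, nsq (v k) ≤ 1

/-- The contraction rate. -/
noncomputable def th : ℝ := 1 / 10 ^ 9

namespace Fr

variable {ι δ : Type} [Fintype ι] [Fintype δ] [DecidableEq δ] (F : Fr ι δ)

/-- The size of the fresh component. -/
noncomputable def β (k : ℕ) : ℝ := √(2 * th - th ^ 2 * nsq (F.v k))

/-- The contraction. -/
noncomputable def T (k : ℕ) : Matrix δ δ ℝ := 1 - th • vecMulVec (F.v k) (F.v k)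

/-- The isometries. -/
noncomputable def J : ℕ → Matrix ι δ ℝ
  | 0 => F.J0
  | k + 1 => J k * F.T k + F.β k • vecMulVec (F.e k) (F.v k)

/-- The exit directions. -/
noncomputable def γ (k : ℕ) : ι → ℝ :=
  F.β k • (F.J k *ᵥ F.v k) - (1 - th * nsq (F.v k)) • F.e k

/-- The weight form. -/
noncomputable def A (a : ℕ → ℝ) : Matrix ι ι ℝ := ∑ j ∈ range F.N, a j • vecMulVec (F.e j) (F.e j)

variable {F} {k j : ℕ}

theorem β_sq (k : ℕ) : F.β k ^ 2 = 2 * th - th ^ 2 * nsq (F.v k) ∧ th ≤ F.β k ^ 2 ∧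
    F.β k ^ 2 ≤ 2 * th := by
  have h1 := F.small k
  have h2 := nsq_nonneg (F.v k)
  have h : th ≤ 2 * th - th ^ 2 * nsq (F.v k) := by simp only [th]; nlinarith
  have e : F.β k ^ 2 = 2 * th - th ^ 2 * nsq (F.v k) :=
    Real.sq_sqrt (le_trans (by norm_num [th]) h)
  refine ⟨e, e ▸ h, ?_⟩
  have := mul_nonneg (sq_nonneg th) h2
  linarith

theorem β_ne (k : ℕ) : F.β k ≠ 0 := fun h => by
  have := (β_sq (F := F) k).2.1
  rw [h] at this
  norm_num [th] at this

theorem T_symm (k : ℕ) : (F.T k)ᵀ = F.T k := by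
  rw [T, transpose_sub, transpose_one, transpose_smul, transpose_vecMulVec]

theorem T_mulVec (k : ℕ) (x : δ → ℝ) : F.T k *ᵥ x = x - (th * (F.v k ⬝ᵥ x)) • F.v k := by
  rw [T, sub_mulVec, one_mulVec, smul_mulVec, vecMulVec_mulVec, op_smul_eq_smul, smul_smul]

theorem T_sq (k : ℕ) : F.T k * F.T k = 1 - F.β k ^ 2 • vecMulVec (F.v k) (F.v k) := by
  rw [(β_sq k).1, T]
  simp only [sub_mul, mul_sub, one_mul, mul_one, smul_mul_assoc, mul_smul_comm,
    vecMulVec_mul_vecMulVec, vecMulVec_smul, nsq]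
  module

theorem J_mulVec (k : ℕ) (x : δ → ℝ) :
    F.J (k + 1) *ᵥ x = F.J k *ᵥ F.T k *ᵥ x + (F.β k * (F.v k ⬝ᵥ x)) • F.e k := by
  rw [J, add_mulVec, mulVec_mulVec, smul_mulVec, vecMulVec_mulVec, op_smul_eq_smul, smul_smul]

theorem Jt_mulVec (k : ℕ) (g : ι → ℝ) :
    (F.J (k + 1))ᵀ *ᵥ g = F.T k *ᵥ (F.J k)ᵀ *ᵥ g + (F.β k * (F.e k ⬝ᵥ g)) • F.v k := by
  rw [J, transpose_add, transpose_mul, T_symm, transpose_smul, transpose_vecMulVec, add_mulVec,
    mulVec_mulVec, smul_mulVec, vecMulVec_mulVec, op_smul_eq_smul, smul_smul]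

theorem J_fresh (hj : j < F.N) : ∀ k ≤ j, (F.J k)ᵀ *ᵥ F.e j = 0
  | 0, _ => F.fresh j hj
  | k + 1, h => by
    rw [Jt_mulVec, J_fresh hj k (by omega), F.orth k (by omega) j hj (by omega)]
    simp

theorem dot_J (hj : j < F.N) (h : k ≤ j) (x : δ → ℝ) : F.e j ⬝ᵥ F.J k *ᵥ x = 0 := by
  rw [dotProduct_mulVec, ← mulVec_transpose, J_fresh hj k h, zero_dotProduct]

theorem J_conj {B : Matrix ι ι ℝ} {c : ℝ} (hB : Bᵀ = B) (hk : k < F.N)
    (h : B *ᵥ F.e k = c • F.e k) : (F.J (k + 1))ᵀ * B * F.J (k + 1) =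
      F.T k * ((F.J k)ᵀ * B * F.J k) * F.T k + (F.β k ^ 2 * c) • vecMulVec (F.v k) (F.v k) := by
  have h1 : (F.J k)ᵀ * B * vecMulVec (F.e k) (F.v k) = 0 := by
    rw [mul_vecMulVec, ← mulVec_mulVec, h, mulVec_smul, J_fresh hk k le_rfl]
    simp
  have h2 : vecMulVec (F.v k) (F.e k) * B * F.J k = 0 := by
    have := congrArg transpose h1
    rwa [transpose_mul, transpose_mul, transpose_transpose, hB, transpose_vecMulVec,
      transpose_zero, ← Matrix.mul_assoc] at this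
  have h3 : vecMulVec (F.v k) (F.e k) * B * vecMulVec (F.e k) (F.v k) =
      c • vecMulVec (F.v k) (F.v k) := by
    rw [Matrix.mul_assoc, mul_vecMulVec, h, smul_vecMulVec, Matrix.mul_smul,
      vecMulVec_mul_vecMulVec, show F.e k ⬝ᵥ F.e k = 1 from F.unit k hk, one_smul]
  rw [J, transpose_add, transpose_mul, T_symm, transpose_smul, transpose_vecMulVec]
  simp only [Matrix.add_mul, Matrix.mul_add, Matrix.smul_mul, Matrix.mul_smul, h3]
  rw [← Matrix.mul_assoc _ (F.J k), ← Matrix.mul_assoc _ (F.J k), h2, Matrix.mul_assoc (F.T k) _ B,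
    Matrix.mul_assoc (F.T k) _ (vecMulVec _ _), h1, Matrix.mul_assoc (F.T k) _ (F.J k)]
  simp [smul_smul, sq, mul_assoc]

variable [DecidableEq ι]

theorem J_iso : ∀ k ≤ F.N, (F.J k)ᵀ * F.J k = 1
  | 0, _ => F.iso
  | k + 1, h => by
    have := J_conj (F := F) (B := 1) (c := 1) (k := k) transpose_one (by omega) (by simp)
    rw [Matrix.mul_one, Matrix.mul_one, J_iso k (by omega), Matrix.mul_one, T_sq] at this
    rw [this]
    simp

theorem J_dot (hk : k ≤ F.N) (x y : δ → ℝ) : F.J k *ᵥ x ⬝ᵥ F.J k *ᵥ y = x ⬝ᵥ y := by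
  rw [dotProduct_mulVec, ← mulVec_transpose, mulVec_mulVec, J_iso k hk, one_mulVec]

theorem nsq_Jt (hk : k ≤ F.N) (g : ι → ℝ) : nsq ((F.J k)ᵀ *ᵥ g) ≤ nsq g := by
  have h1 := dot_sq_le g (F.J k *ᵥ (F.J k)ᵀ *ᵥ g)
  rw [dotProduct_mulVec, ← mulVec_transpose, nsq, nsq, J_dot hk] at h1
  rcases (nsq_nonneg ((F.J k)ᵀ *ᵥ g)).eq_or_lt with h | h
  · exact h ▸ nsq_nonneg g
  · exact le_of_mul_le_mul_right (by rwa [sq] at h1) h

theorem γ_J (hk : k < F.N) (x : δ → ℝ) : F.γ k ⬝ᵥ F.J (k + 1) *ᵥ x = 0 := by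
  have h1 := dot_J hk le_rfl (F.v k)
  rw [dotProduct_comm] at h1
  simp only [γ, J_mulVec, sub_dotProduct, dotProduct_add, smul_dotProduct, dotProduct_smul,
    J_dot hk.le, dot_J hk le_rfl, h1, show F.e k ⬝ᵥ F.e k = 1 from F.unit k hk, T_mulVec,
    dotProduct_sub, smul_eq_mul, nsq]
  ring

variable {a : ℕ → ℝ}

omit [DecidableEq ι] in
theorem A_mulVec (x : ι → ℝ) : F.A a *ᵥ x = ∑ j ∈ range F.N, (a j * (F.e j ⬝ᵥ x)) • F.e j := by
  rw [A, sum_mulVec]
  exact sum_congr rfl fun j _ => by rw [smul_mulVec, vecMulVec_mulVec, op_smul_eq_smul, smul_smul]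

omit [DecidableEq ι] in
theorem qf_A (x : ι → ℝ) : qf (F.A a) x = ∑ j ∈ range F.N, a j * (x ⬝ᵥ F.e j) ^ 2 := by
  rw [qf, A_mulVec, dotProduct_sum]
  exact sum_congr rfl fun j _ => by
    rw [dotProduct_smul, smul_eq_mul, dotProduct_comm (F.e j)]; ring

omit [DecidableEq ι] in
theorem cost_A (L : List (Matrix ι ι ℝ)) : cost (F.A a) L =
    ∑ j ∈ range F.N, a j * (L.map fun M => fro M * nsq (M *ᵥ F.e j)).sum := by
  induction L with
  | nil => simp [cost]
  | cons M L ih =>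
    simp only [cost, List.map_cons, List.sum_cons, mul_add, sum_add_distrib] at *
    rw [ih, aco_eq, add_left_inj]
    simp only [qf_A, nsq_mulVec, mul_sum]
    rw [sum_comm]
    exact sum_congr rfl fun j _ => sum_congr rfl fun i _ => by ring

/-- The system of projections attached to a weight. -/
noncomputable def sys (F : Fr ι δ) (a : ℕ → ℝ) (ha : ∀ j, 0 ≤ a j) : Sys ι where
  A := F.A a
  N := F.N
  e := F.e
  γ := F.γ
  a := a
  symm := by simp only [A, transpose_sum, transpose_smul, transpose_vecMulVec]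
  pos x := by rw [qf_A]; exact sum_nonneg fun j _ => mul_nonneg (ha j) (sq_nonneg _)
  unit := F.unit
  orth := F.orth
  eig k hk := by
    rw [A_mulVec, sum_eq_single k (fun j hj h => by
      rw [F.orth j (mem_range.1 hj) k hk h]; simp) (fun h => absurd (mem_range.2 hk) h),
      show F.e k ⬝ᵥ F.e k = 1 from F.unit k hk, mul_one]
  hit k hk := by
    have h1 := dot_J hk le_rfl (F.v k)
    rw [dotProduct_comm] at h1
    have h2 := F.small k
    simp only [γ, sub_dotProduct, smul_dotProduct, h1, show F.e k ⬝ᵥ F.e k = 1 from F.unit k hk,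
      smul_eq_mul, th]
    intro h
    linarith

omit [DecidableEq ι] in
theorem good (ha : ∀ j, 0 ≤ a j) : (F.sys a ha).Good 0 (F.J0 * F.J0ᵀ) :=
  ⟨⟨by rw [transpose_mul, transpose_transpose], by
    rw [Matrix.mul_assoc, ← Matrix.mul_assoc F.J0ᵀ, F.iso, Matrix.one_mul]⟩,
    fun j _ hj => by rw [← mulVec_mulVec]; exact (congrArg _ (F.fresh j hj)).trans (mulVec_zero _)⟩

theorem ch_fix (ha : ∀ j, 0 ≤ a j) (x : δ → ℝ) : ∀ k ≤ F.N,
    (F.sys a ha).ch (F.J0 * F.J0ᵀ) 0 k *ᵥ F.J k *ᵥ x = F.J k *ᵥ x := by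
  intro k hk
  induction k generalizing x with
  | zero =>
    show (F.J0 * F.J0ᵀ) *ᵥ F.J0 *ᵥ x = F.J0 *ᵥ x
    rw [mulVec_mulVec, Matrix.mul_assoc, F.iso, Matrix.mul_one]
  | succ k ih =>
    have g := (good ha).ch k (show 0 + k ≤ F.N by omega)
    have h1 : (F.sys a ha).ch (F.J0 * F.J0ᵀ) 0 k *ᵥ F.e k = 0 := g.2 k (by omega) (by exact hk)
    refine cut_fix (g.add (show 0 + k < F.N by omega)).1 ?_ (by rw [zero_add]; exact γ_J hk x)
    show (_ + line (F.e (0 + k))) *ᵥ _ = _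
    rw [zero_add, J_mulVec, add_mulVec, mulVec_add, mulVec_add, ih _ (by omega), mulVec_smul, h1,
      mulVec_smul, line_self, line_mulVec, dot_J hk le_rfl]
    simp

omit [DecidableEq ι] in
theorem slab_sum (ha : ∀ j, 0 ≤ a j) : ∀ k ≤ F.N, trace ((F.J k)ᵀ * F.A a * F.J k) +
    th * ∑ j ∈ range k, qf (F.A a) (F.J j *ᵥ F.v j) ≤ 2 * th * ∑ j ∈ range k, a j
  | 0, _ => by
    have : F.A a * F.J 0 = 0 := by
      ext i j
      have := congrFun (A_mulVec (F := F) (a := a) (F.J 0 *ᵥ Pi.single j 1)) i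
      rw [sum_eq_zero fun l hl => by rw [dot_J (mem_range.1 hl) (Nat.zero_le _)]; simp,
        mulVec_mulVec] at this
      simpa using this
    simp [Matrix.mul_assoc, this]
  | k + 1, hk => by
    have ih := slab_sum ha k (by omega)
    have h1 := J_conj (F.sys a ha).symm (show k < F.N by omega) ((F.sys a ha).eig k hk)
    have h2 : trace ((F.J k)ᵀ * F.A a * F.J k * vecMulVec (F.v k) (F.v k)) =
        qf (F.A a) (F.J k *ᵥ F.v k) := by
      rw [mul_vecMulVec, trace_vecMulVec, dotProduct_comm, ← mulVec_mulVec, ← mulVec_mulVec,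
        dotProduct_mulVec, vecMul_transpose, qf]
    have h3 := (F.sys a ha).pos (F.J k *ᵥ F.v k)
    obtain ⟨-, h4, h5⟩ := β_sq (F := F) k
    have h6 := F.small k
    simp only [sys] at h1 h3
    rw [h1, trace_add, trace_mul_cycle, T_sq, trace_mul_comm, Matrix.mul_sub, Matrix.mul_one,
      Matrix.mul_smul, trace_sub, trace_smul, h2, trace_smul, trace_vecMulVec, sum_range_succ,
      sum_range_succ, smul_eq_mul, smul_eq_mul]
    have h7 := mul_le_mul_of_nonneg_right h4 h3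
    have h8 := mul_le_mul_of_nonneg_right h5 (ha k)
    have h9 := mul_le_mul_of_nonneg_left h6 (mul_nonneg (sq_nonneg (F.β k)) (ha k))
    rw [nsq] at h9
    linarith

end Fr

end Vale.Agent.P262
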