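import Vale.Agent.P262.Feed

/-! Signs with all initial sums of order the square root of the dimension. -/

namespace Vale.Agent.P262

open Matrix Finset

namespace Fr

variable {ι δ : Type} [Fintype ι] [Fintype δ] [DecidableEq δ] [DecidableEq ι] (F : Fr ι δ)

/-- The target body. -/
def K : Set (ι → ℝ) := {g | (∀ k ≤ F.N, nsq ((F.J k)ᵀ *ᵥ g) ≤ 1089 * Fintype.card δ) ∧
  ∀ k < F.N, |F.J k *ᵥ F.v k ⬝ᵥ g| ≤ 3}

/-- The directions of the lifting. -/
noncomputable def w (k : ℕ) : ι → ℝ := (10 ^ 8 * F.β k)⁻¹ • F.e k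

omit [DecidableEq ι] in
theorem K_convex : Convex ℝ F.K := by
  rintro x ⟨hx, hx'⟩ y ⟨hy, hy'⟩ a b ha hb hab
  refine ⟨fun k hk => ?_, fun k hk => ?_⟩
  · have h1 := hx k hk
    have h2 := hy k hk
    rw [mulVec_add, mulVec_smul, mulVec_smul, nsq_add, nsq_smul, nsq_smul, smul_dotProduct,
      dotProduct_smul, smul_eq_mul, smul_eq_mul]
    have h3 := nsq_nonneg ((F.J k)ᵀ *ᵥ x - (F.J k)ᵀ *ᵥ y)
    rw [nsq_sub] at h3
    obtain rfl : b = 1 - a := by linarith
    nlinarith [mul_le_mul_of_nonneg_left h3 (mul_nonneg ha hb), mul_le_mul_of_nonneg_left h1 ha,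
      mul_le_mul_of_nonneg_left h2 hb]
  · have h1 := abs_le.1 (hx' k hk)
    have h2 := abs_le.1 (hy' k hk)
    rw [dotProduct_add, dotProduct_smul, dotProduct_smul, smul_eq_mul, smul_eq_mul, abs_le]
    constructor <;> nlinarith

omit [DecidableEq ι] in
theorem K_symm : ∀ x ∈ F.K, -x ∈ F.K := fun x hx =>
  ⟨fun k hk => by rw [mulVec_neg, nsq_neg]; exact hx.1 k hk,
    fun k hk => by rw [dotProduct_neg, abs_neg]; exact hx.2 k hk⟩

variable {F} {a : ℕ → ℝ}

theorem cov_K (ha : ∀ j, 0 ≤ a j) (h1 : ∑ j ∈ range F.N, a j ≤ 1) :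
    Cov (F.A a) 37 fun g => g ∈ F.K := by
  have c1 := Sys.cover (good (F := F) ha) (by
    refine eq_of_mulVec fun x => ?_
    show (F.A a * _) *ᵥ x = _
    rw [← mulVec_mulVec, ← mulVec_mulVec, A_mulVec, zero_mulVec]
    exact sum_eq_zero fun l hl => by
      rw [show F.e l ⬝ᵥ F.J0 *ᵥ F.J0ᵀ *ᵥ x = 0 from dot_J (mem_range.1 hl) (Nat.zero_le _) _]
      simp) h1
  have c2 := Cov.all (A := F.A a) (c := fun k => qf (F.A a) (F.J k *ᵥ F.v k) / 81)
    (Q := fun k g => |F.J k *ᵥ F.v k ⬝ᵥ g| ≤ 3) F.N fun k hk => by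
      have u1 : F.e k ⬝ᵥ F.e k = 1 := F.unit k hk
      have f1 : fro (vecMulVec (F.e k) (F.J k *ᵥ F.v k)) ≤ 1 := by
        rw [fro, transpose_vecMulVec, vecMulVec_mul_vecMulVec, trace_vecMulVec, dotProduct_smul,
          u1, J_dot hk.le, smul_eq_mul, mul_one]
        exact F.small k
      have f2 : aco (F.A a) (vecMulVec (F.e k) (F.J k *ᵥ F.v k)) = qf (F.A a) (F.J k *ᵥ F.v k) := by
        rw [aco, transpose_vecMulVec, Matrix.mul_assoc, mul_vecMulVec, vecMulVec_mul_vecMulVec,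
          trace_vecMulVec, dotProduct_smul, u1, smul_eq_mul, mul_one, qf]
      refine (Cov.single (b := 3) (by norm_num) (f1.trans (by norm_num))).mono ?_ fun g hg => ?_
      · have := mul_le_of_le_one_left ((F.sys a ha).pos (F.J k *ᵥ F.v k)) f1
        simp only [sys] at this
        rw [f2]
        linarith
      · rw [vecMulVec_mulVec, op_smul_eq_smul, nsq_smul, F.unit k hk, mul_one] at hg
        exact abs_le_of_sq_le_sq hg (by norm_num)
  refine (c1.and c2).mono ?_ ?_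
  · have h2 := slab_sum (F := F) ha F.N le_rfl
    have h3 : 0 ≤ trace ((F.J F.N)ᵀ * F.A a * F.J F.N) := by
      refine sum_nonneg fun i _ => ?_
      have := (F.sys a ha).pos (F.J F.N *ᵥ Pi.single i 1)
      rw [qf, mulVec_mulVec, ← vecMul_transpose, ← dotProduct_mulVec, mulVec_mulVec,
        ← Matrix.mul_assoc] at this
      simpa [sys] using this
    rw [← sum_div]
    simp only [th] at h2
    linarith
  · rintro g ⟨g1, g2⟩
    refine ⟨fun k hk => ?_, g2⟩
    have h2 := g1 k hk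
    have hW := ((good (F := F) ha).ch k (show 0 + k ≤ F.N by omega)).1
    rw [trace_mul_comm, F.iso, trace_one] at h2
    refine le_trans (le_of_eq (congrArg nsq ?_)) ((nsq_Jt hk _).trans h2)
    funext i
    have h3 := congrArg (g ⬝ᵥ ·) (ch_fix ha (Pi.single i 1) k hk)
    simp only [dot_mulVec_symm hW.symm] at h3
    simp only [dotProduct_mulVec, ← mulVec_transpose, dotProduct_single, mul_one] at h3
    exact h3.symm

theorem dens_K (ha : ∀ j, 0 ≤ a j) (h1 : ∑ j ∈ range F.N, a j ≤ 1) :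
    ∃ f, Dens F.K f ∧ ∑ j ∈ range F.N, a j * tv f ((3 : ℝ) • F.w j) < 1 / 3 := by
  obtain ⟨L, l1, l2, l3⟩ := cov_K ha h1
  obtain ⟨f, f1, f2, f3, f4, f5⟩ := gauss L l1
  refine ⟨f, ⟨f1, f2, f3, fun x hx => l3 x (f4 x hx)⟩, ?_⟩
  rw [cost_A] at l2
  have : ∀ j ∈ range F.N, a j * tv f ((3 : ℝ) • F.w j) ≤ (1 / 6 + 1 / 10 ^ 5) * a j +
      2 / 10 ^ 3 * (a j * (L.map fun M => fro M * nsq (M *ᵥ F.e j)).sum) := fun j hj => by
    have s1 : (3 * (10 ^ 8 * F.β j)⁻¹) ^ 2 ≤ 1 / 10 ^ 6 := by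
      have := (β_sq (F := F) j).2.1
      have h0 : 0 < F.β j ^ 2 := lt_of_lt_of_le (by norm_num [th]) this
      rw [mul_pow, inv_pow, mul_pow, ← div_eq_mul_inv, div_le_div_iff₀ (by positivity)
        (by positivity)]
      simp only [th] at this
      linarith
    rw [w, smul_smul]
    generalize 3 * (10 ^ 8 * F.β j)⁻¹ = s at *
    have s2 : nsq (s • F.e j) = s ^ 2 := by rw [nsq_smul, F.unit j (mem_range.1 hj), mul_one]
    have s3 := f5 (s • F.e j) (1 / 12) (by rw [s2]; linarith) (by norm_num)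
    have s4 : (L.map fun M => fro M * nsq (M *ᵥ s • F.e j)).sum =
        s ^ 2 * (L.map fun M => fro M * nsq (M *ᵥ F.e j)).sum := by
      rw [← List.sum_map_mul_left]
      simp only [mulVec_smul, nsq_smul, mul_left_comm]
    have s5 : 0 ≤ (L.map fun M => fro M * nsq (M *ᵥ F.e j)).sum :=
      List.sum_nonneg fun x hx => by
        obtain ⟨M, -, rfl⟩ := List.mem_map.1 hx
        exact mul_nonneg (fro_nonneg _) (nsq_nonneg _)
    rw [s2, s4] at s3
    have s6 := mul_le_mul_of_nonneg_right s1 s5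
    have s7 : tv f (s • F.e j) ≤ (1 / 6 + 1 / 10 ^ 5) +
        2 / 10 ^ 3 * (L.map fun M => fro M * nsq (M *ᵥ F.e j)).sum := by
      rw [tv]; linarith
    have := mul_le_mul_of_nonneg_left s7 (ha j)
    linarith
  refine (sum_le_sum this).trans_lt ?_
  rw [sum_add_distrib, ← mul_sum, ← mul_sum]
  linarith

theorem exists_signs (F : Fr ι δ) : ∃ ε : ℕ → ℝ, (∀ k < F.N, ε k = 1 ∨ ε k = -1) ∧
    ∀ k ≤ F.N, nsq (∑ i ∈ range k, ε i • F.v i) ≤ (33 * 10 ^ 8) ^ 2 * Fintype.card δ := by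
  obtain ⟨ε, y, y0, hy, hK⟩ := signs F.K_convex F.K_symm F.N F.w
    (fun k y => max (-(1 / 2)) (min (1 / 2) (th * 10 ^ 8 * (F.J k *ᵥ F.v k ⬝ᵥ y))))
    (fun k y => abs_le.2 ⟨le_max_left _ _, max_le (by norm_num) (min_le_left _ _)⟩)
    fun a ha h1 => by
      have := dens_K (F := F) (a := fun j => if h : j < F.N then a ⟨j, h⟩ else 0)
        (fun j => by split_ifs; exacts [ha _, le_rfl]) (by simpa [sum_range] using h1)
      simpa [sum_range] using this
  have e1 : ∀ k n, k + n ≤ F.N → (F.J k)ᵀ *ᵥ y (k + n) = (F.J k)ᵀ *ᵥ y k := by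
    intro k n hn
    induction n with
    | zero => rfl
    | succ n ih =>
      rw [← add_assoc, (hy _ (by omega)).2, mulVec_add, ih (by omega), w, mulVec_smul, mulVec_smul,
        J_fresh (by omega) k (by omega)]
      simp
  have e1' : ∀ k ≤ F.N, (F.J k)ᵀ *ᵥ y F.N = (F.J k)ᵀ *ᵥ y k := fun k hk => by
    have := e1 k (F.N - k) (by omega)
    rwa [Nat.add_sub_cancel' hk] at this
  have e2 : ∀ j < F.N, ∀ k ≤ j, F.e j ⬝ᵥ y k = 0 := by
    intro j hj k hk
    induction k with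
    | zero => simp [y0]
    | succ k ih =>
      rw [(hy _ (by omega)).2, dotProduct_add, ih (by omega), w, dotProduct_smul, dotProduct_smul,
        F.orth j hj k (by omega) (by omega)]
      simp
  have e3 : ∀ k ≤ F.N, ∑ i ∈ range k, ε i • F.v i = (10 ^ 8 : ℝ) • (F.J k)ᵀ *ᵥ y k := by
    intro k hk
    induction k with
    | zero => simp [y0]
    | succ k ih =>
      have d : ∀ g, F.J k *ᵥ F.v k ⬝ᵥ g = F.v k ⬝ᵥ (F.J k)ᵀ *ᵥ g := fun g => by
        rw [dotProduct_mulVec, vecMul_transpose]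
      have h1 := abs_le.1 (hK.2 k hk)
      rw [d, e1' k (by omega)] at h1
      have h2 := (hy k hk).2
      rw [d, min_eq_right (by simp only [th]; linarith), max_eq_right (by simp only [th]; linarith)]
        at h2
      have hb := β_ne (F := F) k
      rw [sum_range_succ, ih (by omega), h2, Jt_mulVec, mulVec_add, w, mulVec_smul, mulVec_smul,
        J_fresh hk k le_rfl, dotProduct_add, e2 k hk k le_rfl, dotProduct_smul, dotProduct_smul,
        show F.e k ⬝ᵥ F.e k = 1 from F.unit k hk, smul_zero, smul_zero, add_zero, T_mulVec]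
      simp only [smul_eq_mul, zero_add]
      match_scalars <;> (field_simp; try ring)
  refine ⟨ε, fun k hk => (hy k hk).1, fun k hk => ?_⟩
  have := hK.1 k hk
  rw [e3 k hk, nsq_smul, ← e1' k hk]
  linarith

end Fr

theorem core {δ : Type} [Fintype δ] (N : ℕ) (v : ℕ → δ → ℝ) (hv : ∀ k, nsq (v k) ≤ 1) :
    ∃ ε : ℕ → ℝ, (∀ k < N, ε k = 1 ∨ ε k = -1) ∧
      ∀ k ≤ N, nsq (∑ i ∈ range k, ε i • v i) ≤ (33 * 10 ^ 8) ^ 2 * Fintype.card δ := by
  classical
  exact Fr.exists_signs (ι := δ ⊕ Fin N)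
    { N := N
      J0 := fromRows 1 0
      e := fun k => if h : k < N then Pi.single (Sum.inr ⟨k, h⟩) 1 else 0
      v := v
      iso := by rw [transpose_fromRows, fromCols_mul_fromRows]; simp
      unit := fun k hk => by simp [hk, nsq]
      orth := fun k hk j hj h => by simp [hk, hj, h]
      fresh := fun k hk => by
        funext i
        simp [hk]
      small := hv }

end Vale.Agent.P262
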