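import Vale.Agent.P262.Proj

/-! Quadratic forms, spectral splitting and the capped trace potential. -/

namespace Vale.Agent.P262

open Matrix

variable {ι : Type} [Fintype ι] [DecidableEq ι]

/-- The quadratic form of a matrix. -/
def qf (X : Matrix ι ι ℝ) (x : ι → ℝ) : ℝ := x ⬝ᵥ X *ᵥ x

/-- The weighted Frobenius norm. -/
def aco (A m : Matrix ι ι ℝ) : ℝ := trace (m * A * mᵀ)

omit [DecidableEq ι] in
theorem aco_eq (A m : Matrix ι ι ℝ) : aco A m = ∑ i, qf A (m i) := by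
  simp only [aco, trace, diag_apply, qf, mul_apply, transpose_apply, dotProduct, mulVec,
    Finset.sum_mul, Finset.mul_sum]
  refine Finset.sum_congr rfl fun i _ => ?_
  rw [Finset.sum_comm]
  simp only [mul_assoc]

omit [DecidableEq ι] in
theorem qf_conj {P : Matrix ι ι ℝ} (X : Matrix ι ι ℝ) (x : ι → ℝ) :
    qf (Pᵀ * X * P) x = qf X (P *ᵥ x) := by
  rw [qf, qf, ← mulVec_mulVec, ← mulVec_mulVec, dotProduct_mulVec, vecMul_transpose]

theorem exists_diag {X : Matrix ι ι ℝ} (hX : Xᵀ = X) : ∃ (U : Matrix ι ι ℝ) (d : ι → ℝ),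
    Uᵀ * U = 1 ∧ U * Uᵀ = 1 ∧ X = U * diagonal d * Uᵀ := by
  have h : X.IsHermitian := by rwa [IsHermitian, conjTranspose_eq_transpose_of_trivial]
  refine ⟨h.eigenvectorUnitary, h.eigenvalues, ?_, ?_, ?_⟩
  · simpa [star_eq_conjTranspose] using Unitary.coe_star_mul_self h.eigenvectorUnitary
  · simpa [star_eq_conjTranspose] using Unitary.coe_mul_star_self h.eigenvectorUnitary
  · simpa [star_eq_conjTranspose] using h.spectral_theorem

theorem qf_diag (U : Matrix ι ι ℝ) (d x : ι → ℝ) :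
    qf (U * diagonal d * Uᵀ) x = ∑ i, d i * (Uᵀ *ᵥ x) i ^ 2 := by
  have := qf_conj (P := Uᵀ) (diagonal d) x
  rw [transpose_transpose] at this
  rw [this, qf, dotProduct]
  exact Finset.sum_congr rfl fun i _ => by rw [mulVec_diagonal]; ring

theorem trace_mul_nonneg {X Y : Matrix ι ι ℝ} (hX : Xᵀ = X) (h1 : ∀ x, 0 ≤ qf X x)
    (h2 : ∀ x, 0 ≤ qf Y x) : 0 ≤ trace (X * Y) := by
  obtain ⟨U, d, hU, -, rfl⟩ := exists_diag hX
  have hd : ∀ i, 0 ≤ d i := fun i => by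
    have := h1 (U *ᵥ Pi.single i 1)
    rw [qf_diag, mulVec_mulVec, hU, one_mulVec, Finset.sum_eq_single i
      (fun j _ hj => by simp [hj]) (by simp)] at this
    simpa using this
  rw [mul_assoc, mul_assoc, trace_mul_comm, mul_assoc, trace]
  refine Finset.sum_nonneg fun i _ => ?_
  rw [diag_apply, diagonal_mul]
  refine mul_nonneg (hd i) ?_
  have := h2 (U *ᵥ Pi.single i 1)
  rw [← qf_conj, qf] at this
  simpa using this

theorem fro_mono {X Y : Matrix ι ι ℝ} (hX : Xᵀ = X) (hY : Yᵀ = Y) (h1 : ∀ x, 0 ≤ qf Y x)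
    (h2 : ∀ x, qf Y x ≤ qf X x) : fro Y ≤ fro X := by
  have := trace_mul_nonneg (X := X - Y) (Y := X + Y) (by rw [transpose_sub, hX, hY])
    (fun x => by have := h2 x; simp only [qf, sub_mulVec, dotProduct_sub] at *; linarith)
    (fun x => by
      have := h1 x; have := h2 x; simp only [qf, add_mulVec, dotProduct_add] at *; linarith)
  simp only [sub_mul, mul_add, trace_add, trace_sub, trace_mul_comm Y X] at this
  rw [fro, fro, hX, hY]
  linarith

omit [DecidableEq ι] in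
theorem nsq_le_qf {Y : Matrix ι ι ℝ} {ν : ℝ} (hν : 0 < ν) (hY : Yᵀ = Y) (h1 : ∀ x, 0 ≤ qf Y x)
    (h2 : ∀ x, qf Y x ≤ ν * nsq x) (x : ι → ℝ) : nsq (Y *ᵥ x) ≤ ν * qf Y x := by
  have a1 := h1 (ν • x - Y *ᵥ x)
  have a2 := h2 (Y *ᵥ x)
  have e : x ⬝ᵥ Y *ᵥ Y *ᵥ x = nsq (Y *ᵥ x) := dot_mulVec_symm hY _ _
  simp only [qf, mulVec_sub, mulVec_smul, sub_dotProduct, dotProduct_sub, smul_dotProduct,
    dotProduct_smul, smul_eq_mul, e] at a1 a2 ⊢
  rw [show Y *ᵥ x ⬝ᵥ Y *ᵥ x = nsq (Y *ᵥ x) from rfl] at a1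
  refine le_of_mul_le_mul_left ?_ hν
  linarith

theorem fro_compress {Y P P0 : Matrix ι ι ℝ} {ν : ℝ} (hν : 0 < ν) (hY : Yᵀ = Y)
    (h1 : ∀ x, 0 ≤ qf Y x) (h2 : ∀ x, qf Y x ≤ ν * nsq x) (hP : IsP P) (hP0 : IsP P0)
    (hle : P * P0 = P0) (hYP : Y * P = Y) :
    fro Y ≤ fro (P0 * Y * P0) + ν ^ 2 * (trace P - trace P0) := by
  have hQ := hP.sub hP0 hle
  set Q := P - P0 with hQd
  have e1 : Y * (1 - P0) = Y * Q := by rw [hQd, mul_sub, mul_sub, mul_one, hYP]
  have t : ∀ X Z : Matrix ι ι ℝ, Xᵀ = X → Zᵀ = Z → fro (X * Z) = fro (Z * X) := fun X Z a b => by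
    rw [← fro_transpose, transpose_mul, a, b]
  have s1 := hP0.fro_split Y
  have s2 := hP0.fro_split (P0 * Y)
  have s3 := hP0.fro_split (Q * Y)
  rw [e1, t Y P0 hY hP0.symm, t Y Q hY hQ.symm] at s1
  rw [mul_assoc P0 Y (1 - P0), e1] at s2
  rw [mul_assoc Q Y (1 - P0), e1, ← mul_assoc] at s3
  have s4 : fro (Q * Y * P0) = fro (P0 * (Y * Q)) := by
    rw [← fro_transpose, transpose_mul, transpose_mul, hY, hQ.symm, hP0.symm]
  have s5 : fro (Q * Y) ≤ ν * trace (Q * Y * Q) := by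
    have := aco_eq Y Q
    rw [aco, hQ.symm] at this
    rw [this, fro_mul_eq, hY, Finset.mul_sum]
    exact Finset.sum_le_sum fun i _ => nsq_le_qf hν hY h1 h2 _
  have s6 := fro_nonneg (ν • Q - Q * Y * Q)
  have hM : (Q * Y * Q)ᵀ = Q * Y * Q := by
    rw [transpose_mul, transpose_mul, hY, hQ.symm, mul_assoc]
  have s7 : fro (Q * Y * Q) = trace (Q * Y * Q * (Q * Y * Q)) := by rw [fro, hM]
  have a1 : Q * (Q * Y * Q) = Q * Y * Q := by rw [← mul_assoc, ← mul_assoc, hQ.idem]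
  have a2 : Q * Y * Q * Q = Q * Y * Q := by rw [mul_assoc, hQ.idem]
  simp only [fro, transpose_sub, transpose_smul, hM, hQ.symm, sub_mul, mul_sub, smul_mul_assoc,
    mul_smul_comm, hQ.idem, a1, a2, trace_sub, trace_smul, smul_eq_mul] at s6
  have s8 : trace Q = trace P - trace P0 := trace_sub _ _
  rw [← s8]
  nlinarith

variable (A : Matrix ι ι ℝ)

/-- The form of `A` is at most `l` on the range of `P`. -/
def Up (l : ℝ) (P : Matrix ι ι ℝ) : Prop := ∀ x, qf A (P *ᵥ x) ≤ l * nsq (P *ᵥ x)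

/-- The form of `A` is at least `l` on the range of `P`. -/
def Lo (l : ℝ) (P : Matrix ι ι ℝ) : Prop := ∀ x, l * nsq (P *ᵥ x) ≤ qf A (P *ᵥ x)

variable {A}

omit [DecidableEq ι] in
theorem Up.mono {l : ℝ} {P P0 : Matrix ι ι ℝ} (h : Up A l P) (hle : P * P0 = P0) : Up A l P0 :=
  fun x => by have := h (P0 *ᵥ x); rwa [mulVec_mulVec, hle] at this

theorem exists_split (hA : Aᵀ = A) {P : Matrix ι ι ℝ} (hP : IsP P) {μ : ℝ} (hμ : 0 < μ) :
    ∃ B, IsP B ∧ P * B = B ∧ B * A * (P - B) = 0 ∧ Lo A μ B ∧ Up A μ (P - B) := by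
  have hX : (P * A * P)ᵀ = P * A * P := by
    rw [transpose_mul, transpose_mul, hA, hP.symm, mul_assoc]
  obtain ⟨U, d, hU, hU', hd⟩ := exists_diag hX
  have mul : ∀ f g : ι → ℝ, U * diagonal f * Uᵀ * (U * diagonal g * Uᵀ) =
      U * diagonal (fun i => f i * g i) * Uᵀ := fun f g => by
    rw [← diagonal_mul_diagonal]
    simp only [mul_assoc]
    rw [← mul_assoc Uᵀ U, hU, one_mul]
  let χ : ι → ℝ := fun i => if μ < d i then 1 else 0
  have hB : IsP (U * diagonal χ * Uᵀ) := ⟨by simp [mul_assoc], by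
    rw [mul]; congr 3; funext i; simp only [χ]; split_ifs <;> simp⟩
  have hPB : P * (U * diagonal χ * Uᵀ) = U * diagonal χ * Uᵀ := by
    have : U * diagonal χ * Uᵀ = P * A * P * (U * diagonal (fun i => χ i / d i) * Uᵀ) := by
      rw [hd, mul]; congr 3; funext i; simp only [χ]
      split_ifs with h
      · field_simp [(hμ.trans h).ne']
      · simp
    rw [this]
    simp only [← mul_assoc, hP.idem]
  set B := U * diagonal χ * Uᵀ with hBd
  have hBP := hP.le_comm hB hPB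
  have hC := hP.sub hB hPB
  have hPC : P * (P - B) = P - B := by rw [mul_sub, hP.idem, hPB]
  have comm : B * (P * A * P) = P * A * P * B := by
    rw [hd, hBd, mul, mul]; simp only [mul_comm]
  have form : ∀ x, P *ᵥ x = x → qf A x = ∑ i, d i * (Uᵀ *ᵥ x) i ^ 2 := fun x hx => by
    have := qf_conj (P := P) A x
    rw [hP.symm, hx] at this
    rw [← qf_diag, ← hd, this]
  have nrm : ∀ x, nsq x = ∑ i, (Uᵀ *ᵥ x) i ^ 2 := fun x => by
    have := qf_diag U (fun _ => 1) x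
    simp only [diagonal_one, mul_one, hU', qf, one_mulVec, one_mul] at this
    exact this
  have co : ∀ x i, (Uᵀ *ᵥ B *ᵥ x) i = χ i * (Uᵀ *ᵥ x) i := fun x i => by
    rw [mulVec_mulVec, hBd, ← mul_assoc, ← mul_assoc, hU, one_mul, ← mulVec_mulVec,
      mulVec_diagonal]
  refine ⟨B, hB, hPB, ?_, fun x => ?_, fun x => ?_⟩
  · calc B * A * (P - B) = B * (P * A * P) * (P - B) := by
          rw [← mul_assoc, ← mul_assoc, hBP, mul_assoc (B * A), hPC]
      _ = 0 := by rw [comm, mul_assoc, mul_sub, hBP, hB.idem, sub_self, mul_zero]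
  · rw [form _ (by rw [mulVec_mulVec, hPB]), nrm, Finset.mul_sum]
    refine Finset.sum_le_sum fun i _ => ?_
    rw [co]
    simp only [χ]
    split_ifs with h
    · exact mul_le_mul_of_nonneg_right h.le (sq_nonneg _)
    · simp
  · rw [form _ (by rw [mulVec_mulVec, hPC]), nrm, Finset.mul_sum]
    refine Finset.sum_le_sum fun i _ => ?_
    have := co ((P - B) *ᵥ x) i
    rw [mulVec_mulVec (M := B), mul_sub, hBP, hB.idem, sub_self, zero_mulVec, mulVec_zero] at this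
    by_cases h : μ < d i
    · simp only [χ, if_pos h, one_mul, Pi.zero_apply] at this
      simp [← this]
    · exact mul_le_mul_of_nonneg_right (not_lt.1 h) (sq_nonneg _)

variable (A)

/-- The squared Frobenius norm of the compression. -/
def Q0 (P : Matrix ι ι ℝ) : ℝ := fro (P * A * P)

/-- The capped potential: the sum of the squares of the eigenvalues capped at `ν`. -/
noncomputable def qq (ν : ℝ) (P : Matrix ι ι ℝ) : ℝ :=
  sInf {r | ∃ P0, IsP P0 ∧ P * P0 = P0 ∧ r = Q0 A P0 + ν ^ 2 * (trace P - trace P0)}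

variable {A}

omit [DecidableEq ι] in
theorem trace_le {P P0 : Matrix ι ι ℝ} (hP : IsP P) (h0 : IsP P0) (hle : P * P0 = P0) :
    trace P0 ≤ trace P := by
  have := (hP.sub h0 hle).tr_nonneg
  rw [trace_sub] at this
  linarith

theorem Q0_mono {P P0 : Matrix ι ι ℝ} (hP : IsP P) (h0 : IsP P0) (hle : P * P0 = P0) :
    Q0 A P0 ≤ Q0 A P := by
  have : P0 * A * P0 = P0 * (P * A * P) * P0 := by
    rw [← mul_assoc, ← mul_assoc, hP.le_comm h0 hle, mul_assoc (P0 * A), hle]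
  rw [Q0, this]
  exact (h0.fro_right _).trans (h0.fro_left _)

omit [DecidableEq ι] in
theorem qq_le {ν : ℝ} {P P0 : Matrix ι ι ℝ} (hP : IsP P) (h0 : IsP P0) (hle : P * P0 = P0) :
    qq A ν P ≤ Q0 A P0 + ν ^ 2 * (trace P - trace P0) := by
  refine csInf_le ⟨0, ?_⟩ ⟨P0, h0, hle, rfl⟩
  rintro _ ⟨P1, h1, hle1, rfl⟩
  exact add_nonneg (fro_nonneg _)
    (mul_nonneg (sq_nonneg _) (sub_nonneg.2 (trace_le hP h1 hle1)))

omit [DecidableEq ι] in
theorem le_qq {ν c : ℝ} {P : Matrix ι ι ℝ} (hP : IsP P)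
    (h : ∀ P0, IsP P0 → P * P0 = P0 → c ≤ Q0 A P0 + ν ^ 2 * (trace P - trace P0)) :
    c ≤ qq A ν P :=
  le_csInf ⟨_, P, hP, hP.idem, rfl⟩ (by rintro _ ⟨P1, h1, hle1, rfl⟩; exact h P1 h1 hle1)

omit [DecidableEq ι] in
theorem qq_nonneg {ν : ℝ} {P : Matrix ι ι ℝ} (hP : IsP P) : 0 ≤ qq A ν P :=
  le_qq hP fun _ h1 hle1 => add_nonneg (fro_nonneg _)
    (mul_nonneg (sq_nonneg _) (sub_nonneg.2 (trace_le hP h1 hle1)))

omit [DecidableEq ι] in
theorem qq_le_Q0 {ν : ℝ} {P : Matrix ι ι ℝ} (hP : IsP P) : qq A ν P ≤ Q0 A P := by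
  simpa using qq_le (A := A) (ν := ν) hP hP hP.idem

omit [DecidableEq ι] in
theorem qq_sub {ν : ℝ} {P P' : Matrix ι ι ℝ} (hP : IsP P) (hP' : IsP P') (hle : P * P' = P') :
    qq A ν P ≤ ν ^ 2 * (trace P - trace P') + qq A ν P' := by
  rw [← sub_le_iff_le_add']
  refine le_qq hP' fun P0 h0 hle0 => ?_
  have := qq_le (A := A) (ν := ν) hP h0 (by rw [← hle0, ← mul_assoc, hle])
  linarith

theorem qq_lower (hA : Aᵀ = A) (hA0 : ∀ x, 0 ≤ qf A x) {ν : ℝ} (hν : 0 < ν)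
    {B R : Matrix ι ι ℝ} (hB : IsP B) (hR : IsP R) (hBR : B * R = 0) (hx : B * A * R = 0)
    (hlo : Lo A ν B) (hup : Up A ν R) : ν ^ 2 * trace B + Q0 A R ≤ qq A ν (B + R) := by
  have hP := hB.add hR hBR
  have hRB := hB.orth_comm hR hBR
  refine le_qq hP fun P0 h0 hle => ?_
  have hZ : (R * A * R)ᵀ = R * A * R := by
    rw [transpose_mul, transpose_mul, hA, hR.symm, mul_assoc]
  have hY : (ν • B + R * A * R)ᵀ = ν • B + R * A * R := by
    rw [transpose_add, transpose_smul, hB.symm, hZ]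
  have form : ∀ x, qf (ν • B + R * A * R) x = ν * nsq (B *ᵥ x) + qf A (R *ᵥ x) := fun x => by
    have := qf_conj (P := R) A x
    rw [hR.symm] at this
    rw [← this, hB.nsq_eq]
    simp [qf, add_mulVec, smul_mulVec]
  have nrm : ∀ x, nsq (B *ᵥ x) + nsq (R *ᵥ x) ≤ nsq x := fun x => by
    have := hP.nsq_le x
    rw [hP.nsq_eq, add_mulVec, dotProduct_add, ← hB.nsq_eq, ← hR.nsq_eq] at this
    exact this
  have h1 : ∀ x, 0 ≤ qf (ν • B + R * A * R) x := fun x => by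
    rw [form]; exact add_nonneg (mul_nonneg hν.le (nsq_nonneg _)) (hA0 _)
  have h2 := fro_compress hν hY h1 (fun x => by
    rw [form]; have := hup x; have := mul_le_mul_of_nonneg_left (nrm x) hν.le; linarith) hP h0 hle
    (by simp [add_mul, mul_add, mul_assoc, hB.idem, hR.idem, hBR, hRB])
  have h3 : fro (ν • B + R * A * R) = ν ^ 2 * trace B + Q0 A R := by
    have a1 : B * (R * A * R) = 0 := by rw [← mul_assoc, ← mul_assoc, hBR, zero_mul, zero_mul]
    have a2 : R * A * R * B = 0 := by rw [mul_assoc, hRB, mul_zero]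
    rw [Q0, fro, fro, hY, hZ]
    simp only [add_mul, mul_add, smul_mul_assoc, mul_smul_comm, hB.idem, a1, a2, smul_zero,
      add_zero, zero_add, trace_add, trace_smul, smul_eq_mul]
    ring
  have h4 : fro (P0 * (ν • B + R * A * R) * P0) ≤ Q0 A P0 := by
    have c : ∀ X x, qf (P0 * X * P0) x = qf X (P0 *ᵥ x) := fun X x => by
      have := qf_conj (P := P0) X x
      rwa [h0.symm] at this
    refine fro_mono (by rw [transpose_mul, transpose_mul, hA, h0.symm, mul_assoc])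
      (by rw [transpose_mul, transpose_mul, hY, h0.symm]; exact (mul_assoc _ _ _).symm)
      (fun x => by rw [c]; exact h1 _)
      (fun x => ?_)
    rw [c, c, form]
    have e : P0 *ᵥ x = B *ᵥ P0 *ᵥ x + R *ᵥ P0 *ᵥ x := by
      rw [← add_mulVec, mulVec_mulVec, hle]
    have z : ∀ y, B *ᵥ y ⬝ᵥ A *ᵥ R *ᵥ y = 0 := fun y => by
      rw [← dot_mulVec_symm hB.symm, mulVec_mulVec, mulVec_mulVec, hx, zero_mulVec,
        dotProduct_zero]
    have z' : ∀ y, R *ᵥ y ⬝ᵥ A *ᵥ B *ᵥ y = 0 := fun y => by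
      rw [dot_mulVec_symm hA, dotProduct_comm, z]
    have := hlo (P0 *ᵥ x)
    conv_rhs => rw [e]
    simp only [qf, mulVec_add, dotProduct_add, add_dotProduct, z, z'] at this ⊢
    linarith
  linarith

theorem qq_top (hA : Aᵀ = A) (hA0 : ∀ x, 0 ≤ qf A x) {ν : ℝ} (hν : 0 < ν)
    {P : Matrix ι ι ℝ} (hP : IsP P) (hup : Up A ν P) : Q0 A P ≤ qq A ν P := by
  simpa using qq_lower hA hA0 hν (B := 0) ⟨by simp, by simp⟩ hP (by simp) (by simp)
    (fun x => by simp [nsq, qf]) hup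

theorem qq_split (hA : Aᵀ = A) (hA0 : ∀ x, 0 ≤ qf A x) {ν : ℝ} (hν : 0 < ν)
    {B R : Matrix ι ι ℝ} (hB : IsP B) (hR : IsP R) (hBR : B * R = 0) (hx : B * A * R = 0)
    (hlo : Lo A ν B) : ν ^ 2 * trace B + qq A ν R ≤ qq A ν (B + R) := by
  obtain ⟨B2, h2, hle, hx2, hlo2, hup2⟩ := exists_split hA hR hν
  have hBB : B * B2 = 0 := by rw [← hle, ← mul_assoc, hBR, zero_mul]
  have hxx : B * A * B2 = 0 := by rw [← hle, ← mul_assoc, hx, zero_mul]
  have h3 := hR.sub h2 hle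
  have := qq_lower hA hA0 hν (hB.add h2 hBB) h3
    (by simp [add_mul, mul_sub, hBR, hBB, hR.le_comm h2 hle, h2.idem])
    (by rw [add_mul, add_mul, hx2, mul_sub, hx, hxx]; simp) (fun x => by
      have z : B *ᵥ x ⬝ᵥ A *ᵥ B2 *ᵥ x = 0 := by
        rw [← dot_mulVec_symm hB.symm, mulVec_mulVec, mulVec_mulVec, hxx, zero_mulVec,
          dotProduct_zero]
      have z' : B2 *ᵥ x ⬝ᵥ A *ᵥ B *ᵥ x = 0 := by rw [dot_mulVec_symm hA, dotProduct_comm, z]
      have a1 := hlo x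
      have a2 := hlo2 x
      rw [(hB.add h2 hBB).nsq_eq]
      simp only [qf, add_mulVec, mulVec_add, dotProduct_add, add_dotProduct, z, z',
        ← hB.nsq_eq, ← h2.nsq_eq] at a1 a2 ⊢
      linarith) hup2
  have h4 := qq_le (A := A) (ν := ν) hR h3 (by rw [mul_sub, hR.idem, hle])
  rw [show B + B2 + (R - B2) = B + R by abel, trace_add] at this
  rw [trace_sub] at h4
  linarith

end Vale.Agent.P262
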