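import Mathlib

/-! Orthogonal projections as matrices, Frobenius norms and rank one cuts. -/

namespace Vale.Agent.P262

open Matrix

variable {ι : Type} [Fintype ι] [DecidableEq ι]

/-- Squared Euclidean norm. -/
def nsq (x : ι → ℝ) : ℝ := x ⬝ᵥ x

/-- Squared Frobenius norm. -/
def fro (m : Matrix ι ι ℝ) : ℝ := trace (m * mᵀ)

/-- Orthogonal projections. -/
structure IsP (P : Matrix ι ι ℝ) : Prop where
  symm : Pᵀ = P
  idem : P * P = P

omit [DecidableEq ι] in
theorem nsq_nonneg (x : ι → ℝ) : 0 ≤ nsq x := Finset.sum_nonneg fun _ _ => mul_self_nonneg _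

omit [DecidableEq ι] in
theorem fro_eq (m : Matrix ι ι ℝ) : fro m = ∑ i, nsq (m i) := by
  simp [fro, trace, nsq, mul_apply, dotProduct]

omit [DecidableEq ι] in
theorem fro_nonneg (m : Matrix ι ι ℝ) : 0 ≤ fro m := by
  rw [fro_eq]; exact Finset.sum_nonneg fun i _ => nsq_nonneg _

omit [DecidableEq ι] in
theorem fro_transpose (m : Matrix ι ι ℝ) : fro mᵀ = fro m := by
  rw [fro, fro, transpose_transpose, trace_mul_comm]

omit [DecidableEq ι] in
theorem dot_sq_le (x y : ι → ℝ) : (x ⬝ᵥ y) ^ 2 ≤ nsq x * nsq y := by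
  simpa [nsq, dotProduct, sq] using Finset.sum_mul_sq_le_sq_mul_sq Finset.univ x y

omit [DecidableEq ι] in
theorem nsq_mulVec (m : Matrix ι ι ℝ) (x : ι → ℝ) : nsq (m *ᵥ x) = ∑ i, (m i ⬝ᵥ x) ^ 2 := by
  simp [nsq, dotProduct, mulVec, sq]

omit [DecidableEq ι] in
theorem nsq_mulVec_le (m : Matrix ι ι ℝ) (x : ι → ℝ) : nsq (m *ᵥ x) ≤ fro m * nsq x := by
  rw [nsq_mulVec, fro_eq, Finset.sum_mul]
  exact Finset.sum_le_sum fun i _ => dot_sq_le _ _

omit [DecidableEq ι] in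
theorem fro_mul_eq (X Y : Matrix ι ι ℝ) : fro (X * Y) = ∑ i, nsq (Yᵀ *ᵥ X i) := by
  rw [fro_eq]
  refine Finset.sum_congr rfl fun i _ => congrArg nsq ?_
  funext j
  simp [mul_apply, mulVec, dotProduct, mul_comm]

omit [DecidableEq ι] in
theorem fro_mul_le (X Y : Matrix ι ι ℝ) : fro (X * Y) ≤ fro X * fro Y := by
  rw [fro_mul_eq, fro_eq X, Finset.sum_mul]
  refine Finset.sum_le_sum fun i _ => (nsq_mulVec_le _ _).trans (le_of_eq ?_)
  rw [fro_transpose, mul_comm]

omit [DecidableEq ι] in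
theorem fro_smul (c : ℝ) (m : Matrix ι ι ℝ) : fro (c • m) = c ^ 2 * fro m := by
  simp [fro, sq, mul_assoc]

omit [DecidableEq ι] in
theorem nsq_smul (c : ℝ) (x : ι → ℝ) : nsq (c • x) = c ^ 2 * nsq x := by
  simp [nsq, sq, mul_assoc]

omit [DecidableEq ι] in
theorem dot_mulVec_symm {P : Matrix ι ι ℝ} (h : Pᵀ = P) (x y : ι → ℝ) :
    x ⬝ᵥ P *ᵥ y = P *ᵥ x ⬝ᵥ y := by
  rw [dotProduct_mulVec, ← mulVec_transpose, h]

namespace IsP

variable {P Q : Matrix ι ι ℝ}

omit [DecidableEq ι] in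
theorem fro (h : IsP P) : fro P = trace P := by rw [P262.fro, h.symm, h.idem]

omit [DecidableEq ι] in
theorem tr_nonneg (h : IsP P) : 0 ≤ trace P := h.fro ▸ fro_nonneg P

theorem compl (h : IsP P) : IsP (1 - P) :=
  ⟨by rw [transpose_sub, transpose_one, h.symm], by
    simp only [sub_mul, mul_sub, one_mul, mul_one, h.idem]; abel⟩

omit [DecidableEq ι] in
theorem le_comm (hP : IsP P) (hQ : IsP Q) (h : P * Q = Q) : Q * P = Q := by
  have := congrArg transpose h
  rwa [transpose_mul, hP.symm, hQ.symm] at this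

omit [DecidableEq ι] in
theorem orth_comm (hP : IsP P) (hQ : IsP Q) (h : P * Q = 0) : Q * P = 0 := by
  have := congrArg transpose h
  rwa [transpose_mul, hP.symm, hQ.symm, transpose_zero] at this

omit [DecidableEq ι] in
theorem sub (hP : IsP P) (hQ : IsP Q) (h : P * Q = Q) : IsP (P - Q) :=
  ⟨by rw [transpose_sub, hP.symm, hQ.symm], by
    simp only [sub_mul, mul_sub, hP.idem, hQ.idem, h, hP.le_comm hQ h]; abel⟩

omit [DecidableEq ι] in
theorem add (hP : IsP P) (hQ : IsP Q) (h : P * Q = 0) : IsP (P + Q) :=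
  ⟨by rw [transpose_add, hP.symm, hQ.symm], by
    simp only [add_mul, mul_add, hP.idem, hQ.idem, h, hP.orth_comm hQ h]; abel⟩

omit [DecidableEq ι] in
theorem nsq_eq (h : IsP P) (x : ι → ℝ) : nsq (P *ᵥ x) = x ⬝ᵥ P *ᵥ x := by
  rw [nsq, ← dot_mulVec_symm h.symm, mulVec_mulVec, h.idem]

theorem nsq_split (h : IsP P) (x : ι → ℝ) : nsq x = nsq (P *ᵥ x) + nsq ((1 - P) *ᵥ x) := by
  rw [h.nsq_eq, h.compl.nsq_eq, sub_mulVec, one_mulVec, dotProduct_sub, nsq]; ring

theorem nsq_le (h : IsP P) (x : ι → ℝ) : nsq (P *ᵥ x) ≤ nsq x := by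
  have := h.nsq_split x
  have := nsq_nonneg ((1 - P) *ᵥ x)
  linarith

theorem fro_split (h : IsP P) (X : Matrix ι ι ℝ) :
    P262.fro X = P262.fro (X * P) + P262.fro (X * (1 - P)) := by
  rw [fro_mul_eq, fro_mul_eq, h.symm, h.compl.symm, fro_eq, ← Finset.sum_add_distrib]
  exact Finset.sum_congr rfl fun i _ => h.nsq_split _

theorem fro_right (h : IsP P) (X : Matrix ι ι ℝ) : P262.fro (X * P) ≤ P262.fro X := by
  have := h.fro_split X
  have := fro_nonneg (X * (1 - P))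
  linarith

theorem fro_left (h : IsP P) (X : Matrix ι ι ℝ) : P262.fro (P * X) ≤ P262.fro X := by
  rw [← fro_transpose, transpose_mul, h.symm, ← fro_transpose X]
  exact h.fro_right _

omit [DecidableEq ι] in
theorem fro_mul (hP : IsP P) (hQ : IsP Q) : P262.fro (P * Q) = trace (P * Q) := by
  rw [P262.fro, transpose_mul, hP.symm, hQ.symm, mul_assoc, ← mul_assoc Q, hQ.idem,
    ← mul_assoc, trace_mul_comm, ← mul_assoc, hP.idem]

omit [DecidableEq ι] in
theorem eq_zero (h : IsP P) (h0 : trace P ≤ 0) : P = 0 := by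
  have h1 : P262.fro P = 0 := le_antisymm (h.fro ▸ h0) (fro_nonneg P)
  rw [fro_eq] at h1
  have h2 := (Finset.sum_eq_zero_iff_of_nonneg fun i _ => nsq_nonneg (P i)).1 h1
  ext i j
  have := dotProduct_self_eq_zero.1 (h2 i (Finset.mem_univ _))
  exact congrFun this j

end IsP

/-- The projection on the line of a vector. -/
noncomputable def line (y : ι → ℝ) : Matrix ι ι ℝ := (nsq y)⁻¹ • vecMulVec y y

omit [DecidableEq ι] in
theorem line_mulVec (y x : ι → ℝ) : line y *ᵥ x = ((nsq y)⁻¹ * (y ⬝ᵥ x)) • y := by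
  rw [line, smul_mulVec, vecMulVec_mulVec, op_smul_eq_smul, smul_smul]

omit [DecidableEq ι] in
theorem mul_line (P : Matrix ι ι ℝ) (y : ι → ℝ) :
    P * line y = (nsq y)⁻¹ • vecMulVec (P *ᵥ y) y := by
  rw [line, mul_smul_comm, mul_vecMulVec]

omit [DecidableEq ι] in
theorem line_self (y : ι → ℝ) : line y *ᵥ y = y := by
  rw [line_mulVec]
  by_cases h : nsq y = 0
  · rw [dotProduct_self_eq_zero.1 h, smul_zero]
  · rw [show y ⬝ᵥ y = nsq y from rfl, inv_mul_cancel₀ h, one_smul]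

omit [DecidableEq ι] in
theorem isP_line (y : ι → ℝ) : IsP (line y) :=
  ⟨by rw [line, transpose_smul, transpose_vecMulVec], by rw [mul_line, line_self, line]⟩

omit [DecidableEq ι] in
theorem trace_line {y : ι → ℝ} (h : y ≠ 0) : trace (line y) = 1 := by
  rw [line, trace_smul, trace_vecMulVec, smul_eq_mul]
  exact inv_mul_cancel₀ fun h0 => h (dotProduct_self_eq_zero.1 h0)

omit [DecidableEq ι] in
theorem trace_line_le (y : ι → ℝ) : trace (line y) ≤ 1 := by
  by_cases h : y = 0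
  · simp [h, line]
  · exact (trace_line h).le

/-- Cutting the range of a projection by the hyperplane orthogonal to `γ`. -/
noncomputable def cut (γ : ι → ℝ) (Q : Matrix ι ι ℝ) : Matrix ι ι ℝ := Q - line (Q *ᵥ γ)

variable {γ : ι → ℝ} {Q Q' : Matrix ι ι ℝ}

omit [DecidableEq ι] in
theorem mul_line_self (h : IsP Q) : Q * line (Q *ᵥ γ) = line (Q *ᵥ γ) := by
  rw [mul_line, mulVec_mulVec, h.idem, line]

omit [DecidableEq ι] in
theorem isP_cut (h : IsP Q) : IsP (cut γ Q) := h.sub (isP_line _) (mul_line_self h)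

omit [DecidableEq ι] in
theorem cut_le (h : IsP Q) : Q * cut γ Q = cut γ Q := by
  rw [cut, mul_sub, h.idem, mul_line_self h]

omit [DecidableEq ι] in
theorem cut_fix (h : IsP Q) {x : ι → ℝ} (h1 : Q *ᵥ x = x) (h2 : γ ⬝ᵥ x = 0) :
    cut γ Q *ᵥ x = x := by
  rw [cut, sub_mulVec, line_mulVec, ← dot_mulVec_symm h.symm, h1, h2]
  simp

omit [DecidableEq ι] in
theorem cut_kill (h : IsP Q) {x : ι → ℝ} (h1 : Q *ᵥ x = 0) : cut γ Q *ᵥ x = 0 := by
  rw [cut, sub_mulVec, line_mulVec, ← dot_mulVec_symm h.symm, h1]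
  simp

omit [DecidableEq ι] in
theorem cut_orth (h : IsP Q) : cut γ Q *ᵥ γ = 0 := by
  have : line (Q *ᵥ γ) *ᵥ γ = Q *ᵥ γ := by
    rw [← h.le_comm (isP_line _) (mul_line_self h), ← mulVec_mulVec, line_self]
  rw [cut, sub_mulVec, this, sub_self]

theorem eq_of_mulVec {X Y : Matrix ι ι ℝ} (h : ∀ x, X *ᵥ x = Y *ᵥ x) : X = Y :=
  Matrix.toLin'.injective (LinearMap.ext fun x => by simpa using h x)

theorem cut_mono (h : IsP Q) (h' : IsP Q') (hle : Q * Q' = Q') :
    cut γ Q * cut γ Q' = cut γ Q' := by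
  refine eq_of_mulVec fun x => ?_
  rw [← mulVec_mulVec]
  refine cut_fix h ?_ ?_
  · rw [mulVec_mulVec, ← cut_le h', ← mul_assoc, hle]
  · rw [dot_mulVec_symm (isP_cut h').symm, cut_orth h', zero_dotProduct]

end Vale.Agent.P262
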