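import Vale.Agent.P262.Proj
import Vale.Agent.Lib.PrekopaLeindler

/-! A bump function and a covariance bound for even log concave weights of the Gaussian. -/

namespace Vale.Agent.P262

open Matrix MeasureTheory

variable {ι : Type} [Fintype ι]

/-- The bump profile. -/
noncomputable def bump (x : ι → ℝ) : ℝ := max 0 (1 - nsq x ^ 2)

/-- The Gaussian weight. -/
noncomputable def gau (x : ι → ℝ) : ℝ := Real.exp (-(nsq x / 2))

theorem bump_nonneg (x : ι → ℝ) : 0 ≤ bump x := le_max_left _ _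

theorem bump_le_one (x : ι → ℝ) : bump x ≤ 1 :=
  max_le zero_le_one (by have := sq_nonneg (nsq x); linarith)

theorem nsq_neg (x : ι → ℝ) : nsq (-x) = nsq x := by simp [nsq]

theorem bump_neg (x : ι → ℝ) : bump (-x) = bump x := by rw [bump, nsq_neg, bump]

theorem nsq_add (x y : ι → ℝ) : nsq (x + y) = nsq x + 2 * (x ⬝ᵥ y) + nsq y := by
  simp only [nsq, add_dotProduct, dotProduct_add, dotProduct_comm y x]; ring

theorem nsq_sub (x y : ι → ℝ) : nsq (x - y) = nsq x - 2 * (x ⬝ᵥ y) + nsq y := by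
  simp only [nsq, sub_dotProduct, dotProduct_sub, dotProduct_comm y x]; ring

theorem nsq_le_of_bump {x : ι → ℝ} (h : bump x ≠ 0) : nsq x ≤ 1 := by
  by_contra hc
  exact h (max_eq_left (by nlinarith))

theorem bump_mul_le (x y : ι → ℝ) : bump (x + y) * bump (x - y) ≤ bump x ^ 2 := by
  by_cases h1 : bump (x + y) = 0
  · rw [h1, zero_mul]; positivity
  by_cases h2 : bump (x - y) = 0
  · rw [h2, mul_zero]; positivity
  have a1 := nsq_le_of_bump h1
  have a2 := nsq_le_of_bump h2
  have b1 := nsq_nonneg (x + y)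
  have b2 := nsq_nonneg (x - y)
  have b3 := nsq_nonneg x
  have b4 : 2 * nsq x ≤ nsq (x + y) + nsq (x - y) := by
    have := nsq_nonneg y
    rw [nsq_add, nsq_sub]; linarith
  rw [bump, bump, bump, max_eq_right (by nlinarith), max_eq_right (by nlinarith),
    max_eq_right (by nlinarith)]
  generalize nsq (x + y) = p at *
  generalize nsq (x - y) = p' at *
  generalize nsq x = q at *
  have c1 : (1 - p ^ 2 + (1 - p' ^ 2)) / 2 ≤ 1 - q ^ 2 := by nlinarith [sq_nonneg (p - p')]
  have c2 := pow_le_pow_left₀ (by nlinarith) c1 2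
  nlinarith [sq_nonneg (p ^ 2 - p' ^ 2)]

theorem bump_aux {q r c : ℝ} (hq : 0 ≤ q) (hq1 : q ≤ 1) (hc : c ^ 2 ≤ q * r)
    (h : 1 < q + 2 * c + r) : (1 - q ^ 2) ^ 2 ≤ 32 * q * r + 8 * r ^ 2 := by
  have h1 : (1 - q) ^ 2 ≤ (2 * c + r) ^ 2 := pow_le_pow_left₀ (by linarith) (by linarith) 2
  have h2 : (1 + q) ^ 2 ≤ 2 ^ 2 := pow_le_pow_left₀ (by linarith) (by linarith) 2
  have h3 : (1 - q ^ 2) ^ 2 = (1 - q) ^ 2 * (1 + q) ^ 2 := by ring
  have h4 := mul_le_mul h1 h2 (by positivity) (by positivity)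
  nlinarith [sq_nonneg (2 * c - r)]

theorem bump_sq_sub (x y : ι → ℝ) :
    bump x ^ 2 - bump (x + y) * bump (x - y) ≤ 32 * nsq x * nsq y + 8 * nsq y ^ 2 := by
  have hq := nsq_nonneg x
  have hr := nsq_nonneg y
  have hc := dot_sq_le x y
  have p0 := mul_nonneg (bump_nonneg (x + y)) (bump_nonneg (x - y))
  by_cases h0 : bump x = 0
  · rw [h0]
    have : 0 ≤ 32 * nsq x * nsq y + 8 * nsq y ^ 2 := by positivity
    linarith
  have hq1 := nsq_le_of_bump h0
  rw [bump, max_eq_right (by nlinarith)]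
  rcases lt_or_ge 1 (nsq (x + y)) with h1 | h1
  · have := bump_aux hq hq1 hc (nsq_add x y ▸ h1)
    linarith
  rcases lt_or_ge 1 (nsq (x - y)) with h2 | h2
  · have := bump_aux (c := -(x ⬝ᵥ y)) hq hq1 (by rwa [neg_sq]) (by rw [nsq_sub] at h2; linarith)
    linarith
  have b1 := nsq_nonneg (x + y)
  have b2 := nsq_nonneg (x - y)
  rw [bump, bump, max_eq_right (by nlinarith), max_eq_right (by nlinarith)]
  rw [nsq_add] at *
  rw [nsq_sub] at *
  generalize nsq x = q at *
  generalize nsq y = r at *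
  generalize x ⬝ᵥ y = c at *
  have s1 : (q + r) ^ 2 ≤ 1 := by nlinarith
  have s2 : (q + r) ^ 2 * c ^ 2 ≤ 1 * (q * r) := mul_le_mul s1 hc (by positivity) zero_le_one
  have s3 : q ^ 4 ≤ (q + r) ^ 4 := pow_le_pow_left₀ hq (by linarith) 4
  have s4 : 0 ≤ q * r := by positivity
  nlinarith [sq_nonneg (c ^ 2), sq_nonneg r]

theorem le_bump_sq (x : ι → ℝ) : 1 - 2 * nsq x ≤ bump x ^ 2 := by
  have hq := nsq_nonneg x
  rcases le_total 1 (nsq x) with h | h
  · have := sq_nonneg (bump x)
    linarith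
  · rw [bump, max_eq_right (by nlinarith)]
    nlinarith [sq_nonneg (nsq x ^ 2)]

theorem continuous_nsq : Continuous (nsq : (ι → ℝ) → ℝ) := by
  unfold nsq dotProduct
  fun_prop

theorem continuous_bump : Continuous (bump : (ι → ℝ) → ℝ) :=
  continuous_const.max (continuous_const.sub (continuous_nsq.pow 2))

theorem continuous_gau : Continuous (gau : (ι → ℝ) → ℝ) :=
  Real.continuous_exp.comp (continuous_nsq.div_const 2).neg

theorem gau_pos (x : ι → ℝ) : 0 < gau x := Real.exp_pos _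

theorem integrable_gau : Integrable (gau : (ι → ℝ) → ℝ) := by
  have := Integrable.fintype_prod (ι := ι) (f := fun _ (t : ℝ) => Real.exp (-(1 / 2) * t ^ 2))
    (μ := fun _ => volume) fun _ => integrable_exp_neg_mul_sq (by norm_num)
  refine this.congr (.of_forall fun x => Eq.symm ?_)
  show gau x = ∏ i, Real.exp (-(1 / 2) * x i ^ 2)
  rw [gau, ← Real.exp_sum, nsq, dotProduct, Finset.sum_div, ← Finset.sum_neg_distrib]
  exact congrArg _ (Finset.sum_congr rfl fun i _ => by ring)

theorem gau_mul (x y : ι → ℝ) : gau (x + y) * gau (x - y) = gau x ^ 2 * gau y ^ 2 := by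
  simp only [gau, ← Real.exp_add, ← Real.exp_nat_mul, nsq_add, nsq_sub]
  congr 1
  push_cast
  ring

theorem gau_le_one (x : ι → ℝ) : gau x ≤ 1 :=
  Real.exp_le_one_iff.2 (by have := nsq_nonneg x; linarith)

theorem pl_half {F G K : (ι → ℝ) → ℝ} (hF : Continuous F) (hG : Continuous G)
    (hK : Continuous K) (iF : Integrable F) (iG : Integrable G) (iK : Integrable K)
    (F0 : ∀ x, 0 ≤ F x) (G0 : ∀ x, 0 ≤ G x) (K0 : ∀ x, 0 ≤ K x)
    (H : ∀ x y, F (x + y) * G (x - y) ≤ K x ^ 2) (e : ∫ x, G x = ∫ x, F x) :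
    ∫ x, F x ≤ ∫ x, K x := by
  have := Vale.Agent.Lib.PL.prekopa_leindler (volume : Measure (ι → ℝ)) (a := 1 / 2) (b := 1 / 2)
    (by norm_num) (by norm_num) (by norm_num) hF.measurable.ennreal_ofReal
    hG.measurable.ennreal_ofReal hK.measurable.ennreal_ofReal fun x y => by
      have h1 := H ((1 / 2 : ℝ) • x + (1 / 2 : ℝ) • y) ((1 / 2 : ℝ) • x - (1 / 2 : ℝ) • y)
      rw [show (1 / 2 : ℝ) • x + (1 / 2 : ℝ) • y + ((1 / 2 : ℝ) • x - (1 / 2 : ℝ) • y) = x by
        module, show (1 / 2 : ℝ) • x + (1 / 2 : ℝ) • y - ((1 / 2 : ℝ) • x - (1 / 2 : ℝ) • y) = y by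
        module] at h1
      rw [← ENNReal.mul_rpow_of_nonneg _ _ (by norm_num), ← ENNReal.ofReal_mul (F0 x),
        ENNReal.ofReal_rpow_of_nonneg (mul_nonneg (F0 x) (G0 y)) (by norm_num), ← Real.sqrt_eq_rpow]
      exact ENNReal.ofReal_le_ofReal ((Real.sqrt_le_left (K0 _)).2 h1)
  rw [← ofReal_integral_eq_lintegral_ofReal iF (.of_forall F0),
    ← ofReal_integral_eq_lintegral_ofReal iG (.of_forall G0),
    ← ofReal_integral_eq_lintegral_ofReal iK (.of_forall K0), e,
    ← ENNReal.rpow_add_of_nonneg _ _ (by norm_num) (by norm_num)] at this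
  norm_num at this
  exact (ENNReal.ofReal_le_ofReal_iff (integral_nonneg K0)).1 this

/-- An even midpoint log concave weight with values in the unit interval. -/
structure Wt (H : (ι → ℝ) → ℝ) : Prop where
  cont : Continuous H
  nonneg : ∀ x, 0 ≤ H x
  le_one : ∀ x, H x ≤ 1
  even : ∀ x, H (-x) = H x
  logc : ∀ x y, H (x + y) * H (x - y) ≤ H x ^ 2

variable {H : (ι → ℝ) → ℝ}

theorem Wt.integrable (h : Wt H) (u : ι → ℝ) : Integrable fun x => gau (x - u) * H x :=
  (integrable_gau.comp_sub_right u).mul_bdd h.cont.aestronglyMeasurable (c := 1)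
    (.of_forall fun x => by rw [Real.norm_of_nonneg (h.nonneg x)]; exact h.le_one x)

theorem Wt.integrable0 (h : Wt H) : Integrable fun x => gau x * H x := by
  simpa using h.integrable 0

theorem Wt.shift (h : Wt H) (u : ι → ℝ) : ∫ x, gau (x - u) * H x ≤ ∫ x, gau x * H x := by
  have c : ∀ u : ι → ℝ, Continuous fun x => gau (x - u) * H x := fun u =>
    (continuous_gau.comp (continuous_id.sub continuous_const)).mul h.cont
  have p : ∀ u x : ι → ℝ, 0 ≤ gau (x - u) * H x := fun u x =>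
    mul_nonneg (gau_pos _).le (h.nonneg x)
  refine pl_half (c u) (c (-u)) (continuous_gau.mul h.cont) (h.integrable u) (h.integrable (-u))
    h.integrable0 (p u) (p (-u)) (fun x => mul_nonneg (gau_pos _).le (h.nonneg x))
    (fun x y => ?_) ?_
  · have a1 := gau_mul x (y - u)
    have a2 : gau (y - u) ^ 2 ≤ 1 := pow_le_one₀ (gau_pos _).le (gau_le_one _)
    rw [show x + (y - u) = x + y - u by abel, show x - (y - u) = x - y - -u by abel] at a1
    rw [mul_mul_mul_comm, a1, mul_pow]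
    exact mul_le_mul (mul_le_of_le_one_right (sq_nonneg _) a2) (h.logc x y)
      (mul_nonneg (h.nonneg _) (h.nonneg _)) (sq_nonneg _)
  · rw [← integral_neg_eq_self]
    refine integral_congr_ae (.of_forall fun x => ?_)
    simp only [h.even]
    rw [show -x - -u = -(x - u) by abel, gau, nsq_neg, gau]

/-- A majorant of the squared linear form. -/
noncomputable def chs (u x : ι → ℝ) : ℝ := Real.exp (u ⬝ᵥ x) + Real.exp (-(u ⬝ᵥ x)) - 2

theorem sq_le_chs (u x : ι → ℝ) : (u ⬝ᵥ x) ^ 2 ≤ chs u x := by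
  rw [chs]
  generalize u ⬝ᵥ x = t
  have h1 : Real.exp t + Real.exp (-t) - 2 = (2 * Real.sinh (t / 2)) ^ 2 := by
    have a : Real.exp t = Real.exp (t / 2) ^ 2 := by rw [← Real.exp_nat_mul]; congr 1; push_cast; ring
    have b : Real.exp (-t) = Real.exp (-(t / 2)) ^ 2 := by
      rw [← Real.exp_nat_mul]; congr 1; push_cast; ring
    have c : Real.exp (t / 2) * Real.exp (-(t / 2)) = 1 := by rw [← Real.exp_add]; simp
    rw [Real.sinh_eq, a, b]
    linear_combination (2 : ℝ) * c
  rw [h1, sq_le_sq, abs_mul, Real.abs_sinh, abs_two]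
  have := Real.self_le_sinh_iff.2 (abs_nonneg (t / 2))
  rw [abs_div, abs_two] at this ⊢
  linarith

theorem gau_tilt (u x : ι → ℝ) :
    gau x * Real.exp (u ⬝ᵥ x) = Real.exp (nsq u / 2) * gau (x - u) := by
  simp only [gau, ← Real.exp_add, nsq_sub, dotProduct_comm x u]
  congr 1
  ring

theorem Wt.chs (h : Wt H) {u : ι → ℝ} (hu : nsq u ≤ 1) :
    Integrable (fun x => gau x * H x * chs u x) ∧
      ∫ x, gau x * H x * chs u x ≤ 2 * nsq u * ∫ x, gau x * H x := by
  have e : (fun x => gau x * H x * P262.chs u x) = fun x =>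
      Real.exp (nsq u / 2) * (gau (x - u) * H x) + Real.exp (nsq u / 2) * (gau (x - -u) * H x) -
        2 * (gau x * H x) := by
    funext x
    have a := gau_tilt u x
    have b := gau_tilt (-u) x
    rw [nsq_neg, neg_dotProduct] at b
    rw [P262.chs]
    linear_combination H x * a + H x * b
  have i1 := (h.integrable u).const_mul (Real.exp (nsq u / 2))
  have i2 := (h.integrable (-u)).const_mul (Real.exp (nsq u / 2))
  have i3 := h.integrable0.const_mul 2
  rw [e]
  refine ⟨(i1.add i2).sub i3, ?_⟩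
  rw [integral_sub (i1.fun_add i2) i3, integral_add i1 i2, integral_const_mul, integral_const_mul,
    integral_const_mul]
  have a1 := h.shift u
  have a2 := h.shift (-u)
  have a3 : 0 ≤ ∫ x, gau x * H x := integral_nonneg fun x => mul_nonneg (gau_pos _).le (h.nonneg x)
  have a0 := nsq_nonneg u
  have a4 := (abs_le.1 (Real.abs_exp_sub_one_le (x := nsq u / 2)
    (by rw [abs_of_nonneg (by positivity)]; linarith))).2
  rw [abs_of_nonneg (by positivity)] at a4
  have a5 := Real.exp_pos (nsq u / 2)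
  nlinarith [mul_le_mul_of_nonneg_left a1 a5.le, mul_le_mul_of_nonneg_left a2 a5.le]

end Vale.Agent.P262
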