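import Vale.Agent.P262.Main

/-! The transference from signs to rearrangements, and the Euclidean form of the bound. -/

namespace Vale.Agent.P262

open Finset

theorem transfer {E : Type} [NormedAddCommGroup E] [NormedSpace ℝ E] {N : ℕ} {M : ℝ}
    (v : Fin N → E) (h0 : ∑ i, v i = 0)
    (H : ∀ π : Equiv.Perm (Fin N), ∃ ε : Fin N → ℝ, (∀ i, ε i = 1 ∨ ε i = -1) ∧
      ∀ k : ℕ, ‖∑ i : Fin N with i.val < k, ε i • v (π i)‖ ≤ M) :
    ∃ π : Equiv.Perm (Fin N), ∀ k : ℕ, ‖∑ i : Fin N with i.val < k, v (π i)‖ ≤ M := by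
  classical
  obtain ⟨β, hβ, hβ'⟩ : ∃ β : Equiv.Perm (Fin N) → ℝ,
      (∀ (π : Equiv.Perm (Fin N)) (k : ℕ), ‖∑ i : Fin N with i.val < k, v (π i)‖ ≤ β π) ∧
      ∀ (π : Equiv.Perm (Fin N)) (c : ℝ), (∀ k : ℕ, ‖∑ i : Fin N with i.val < k, v (π i)‖ ≤ c) →
        β π ≤ c := by
    refine ⟨fun π => (range (N + 1)).sup' nonempty_range_add_one
      fun k => ‖∑ i : Fin N with i.val < k, v (π i)‖, fun π k => ?_,
      fun π c h => sup'_le _ _ fun k _ => h k⟩
    have e : (univ.filter fun i : Fin N => i.val < k) =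
        univ.filter fun i : Fin N => i.val < min k N := by
      ext i
      simp
    rw [e]
    exact le_sup' (fun k => ‖∑ i : Fin N with i.val < k, v (π i)‖)
      (show min k N ∈ range (N + 1) from mem_range.2 (by omega))
  obtain ⟨π, hπ⟩ := Finite.exists_min β
  obtain ⟨ε, hε, hM⟩ := H π
  refine ⟨π, fun k => (hβ π k).trans ?_⟩
  let key : Fin N → ℕ := fun i => if ε i = 1 then i.val else 2 * N - i.val
  have inj : Function.Injective key := fun i j h => by
    have := i.2
    have := j.2
    simp only [key] at h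
    split_ifs at h <;> exact Fin.ext (by omega)
  have sm : StrictMono (key ∘ Tuple.sort key) :=
    (Tuple.monotone_sort key).strictMono_of_injective (inj.comp (Tuple.sort key).injective)
  have tot : ∑ i, v (π i) = 0 := (Equiv.sum_comp π v).trans h0
  have half : ∀ (s : ℝ) (k : ℕ), |s| = 1 → ‖(1 / 2 : ℝ) • (s • ∑ i : Fin N with i.val < k, v (π i) +
      ∑ i : Fin N with i.val < k, ε i • v (π i))‖ ≤ (β π + M) / 2 := fun s k hs => by
    have := norm_add_le (s • ∑ i : Fin N with i.val < k, v (π i)) (∑ i : Fin N with i.val < k, ε i • v (π i))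
    rw [norm_smul, Real.norm_eq_abs, hs, one_mul] at this
    have := hβ π k
    have := hM k
    rw [norm_smul, Real.norm_of_nonneg (by norm_num)]
    linarith
  have low : ∀ t, ‖∑ i with key i < t, v (π i)‖ ≤ (β π + M) / 2 := fun t => by
    rcases le_or_gt t N with ht | ht
    · refine le_trans (le_of_eq (congrArg _ ?_)) (half 1 t abs_one)
      rw [smul_sum, ← sum_add_distrib, smul_sum, sum_filter, sum_filter]
      refine sum_congr rfl fun i _ => ?_
      have := i.2
      rcases hε i with h | h
      · simp only [key, h, if_true]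
        split_ifs
        · module
        · rfl
      · simp only [key, h, if_neg (show ¬ (-1 : ℝ) = 1 by norm_num)]
        rw [if_neg (by omega)]
        split_ifs
        · module
        · rfl
    · refine le_trans (le_of_eq (congrArg _ ?_)) (half (-1) (2 * N + 1 - t) (by simp))
      rw [← sub_zero (∑ i with key i < t, v (π i)), ← tot, smul_sum, ← sum_add_distrib, smul_sum,
        sum_filter, sum_filter, ← sum_sub_distrib]
      refine sum_congr rfl fun i _ => ?_
      have := i.2
      rcases hε i with h | h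
      · simp only [key, h, if_true]
        rw [if_pos (by omega)]
        split_ifs
        · module
        · module
      · simp only [key, h, if_neg (show ¬ (-1 : ℝ) = 1 by norm_num)]
        by_cases h1 : 2 * N - i.val < t
        · rw [if_pos h1, if_neg (by omega), sub_self]
        · rw [if_neg h1, if_pos (by omega)]
          module
  have := (hπ ((Tuple.sort key).trans π)).trans (hβ' _ ((β π + M) / 2) fun k => by
    obtain ⟨t, ht⟩ : ∃ t, ∀ i : Fin N, i.val < k ↔ key (Tuple.sort key i) < t := by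
      rcases lt_or_ge k N with h | h
      · exact ⟨key (Tuple.sort key ⟨k, h⟩), fun i => (sm.lt_iff_lt (a := i) (b := ⟨k, h⟩)).symm⟩
      · refine ⟨2 * N + 1, fun i => iff_of_true (by omega) ?_⟩
        have := (Tuple.sort key i).2
        simp only [key]
        split_ifs <;> omega
    refine le_trans (le_of_eq (congrArg _ ?_)) (low t)
    rw [sum_filter, sum_filter,
      ← Equiv.sum_comp (Tuple.sort key) fun i => if key i < t then v (π i) else 0]
    exact sum_congr rfl fun i _ => by simp [ht])
  linarith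

theorem euclid (d N : ℕ) (v : Fin N → EuclideanSpace ℝ (Fin d)) (hv : ∀ i, ‖v i‖ ≤ 1) :
    ∃ ε : Fin N → ℝ, (∀ i, ε i = 1 ∨ ε i = -1) ∧
      ∀ k : ℕ, ‖∑ i : Fin N with i.val < k, ε i • v i‖ ≤ 33 * 10 ^ 8 * √d := by
  have n : ∀ x : EuclideanSpace ℝ (Fin d), nsq x.ofLp = ‖x‖ ^ 2 := fun x => by
    rw [EuclideanSpace.real_norm_sq_eq]
    simp [nsq, dotProduct, sq]
  obtain ⟨ε, h1, h2⟩ := core N (fun k => if h : k < N then (v ⟨k, h⟩).ofLp else 0) fun k => by
    split_ifs
    · rw [n]; exact pow_le_one₀ (norm_nonneg _) (hv _)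
    · simp [nsq]
  refine ⟨fun i => ε i, fun i => h1 i i.2, fun k => ?_⟩
  have h3 := h2 (min k N) (min_le_right _ _)
  have e : (∑ i : Fin N with i.val < k, ε i • v i).ofLp =
      ∑ i ∈ range (min k N), ε i • if h : i < N then (v ⟨i, h⟩).ofLp else 0 := by
    rw [show range (min k N) = (range N).filter (· < k) by ext i; simp [and_comm], sum_filter,
      sum_filter, sum_range, WithLp.ofLp_sum]
    refine sum_congr rfl fun i _ => ?_
    split_ifs <;> simp_all
  rw [← e, n, Fintype.card_fin] at h3
  refine abs_le_of_sq_le_sq' ?_ (by positivity) |>.2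
  rwa [mul_pow _ √d, Real.sq_sqrt (Nat.cast_nonneg d)]

end Vale.Agent.P262
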