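import Vale.Agent.P262.Cov

/-! Facts about the band between two chains inside one window. -/

namespace Vale.Agent.P262

open Matrix

variable {ι : Type} [Fintype ι] [DecidableEq ι]

theorem IsP.fro_split_left {P : Matrix ι ι ℝ} (h : IsP P) (X : Matrix ι ι ℝ) :
    P262.fro X = P262.fro (P * X) + P262.fro ((1 - P) * X) := by
  rw [← fro_transpose X, ← fro_transpose (P * X), ← fro_transpose ((1 - P) * X), transpose_mul,
    transpose_mul, h.symm, h.compl.symm]
  exact h.fro_split _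

theorem fro_mul_compl {X Y : Matrix ι ι ℝ} (hX : IsP X) (hY : IsP Y) :
    fro (X * (1 - Y)) = trace X - trace (X * Y) := by
  rw [hX.fro_mul hY.compl, mul_sub, mul_one, trace_sub]

theorem fro_compl_mul {X Y : Matrix ι ι ℝ} (hX : IsP X) (hY : IsP Y) :
    fro ((1 - X) * Y) = trace Y - trace (X * Y) := by
  rw [hX.compl.fro_mul hY, sub_mul, one_mul, trace_sub]

theorem defect_le {X Y Z : Matrix ι ι ℝ} (hX : IsP X) (hY : IsP Y) (hZ : IsP Z)
    (h1 : trace Z = trace Y) (hm : Z * (1 - Y) * X = 0) :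
    fro (Z * (1 - Y)) * (1 - fro (Y * (1 - X))) ≤ fro (Z * (1 - X)) - fro (Y * (1 - X)) := by
  have e1 : Z * X = Z * (Y * X) := by
    rw [mul_sub, mul_one, sub_mul, sub_eq_zero] at hm
    rw [hm, mul_assoc]
  have e2 := hZ.fro_split_left (Y * X)
  have e3 := hX.fro_split ((1 - Z) * Y)
  have e4 := fro_mul_le ((1 - Z) * Y) (Y * (1 - X))
  rw [mul_assoc, ← mul_assoc Y, hY.idem, ← mul_assoc] at e4
  have e5 : fro ((1 - Z) * Y) = fro (Z * (1 - Y)) := by
    rw [fro_compl_mul hZ hY, fro_mul_compl hZ hY, h1]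
  rw [← e1, hY.fro_mul hX, hZ.fro_mul hX, ← mul_assoc] at e2
  have e6 := fro_mul_compl hZ hX
  have e7 := fro_mul_compl hY hX
  rw [e5] at e3 e4
  linarith

omit [DecidableEq ι] in
theorem aco_le {A m E : Matrix ι ι ℝ} {l : ℝ} (hE : IsP E) (hup : Up A l E) (h : m * E = m) :
    aco A m ≤ l * fro m := by
  rw [aco_eq, fro_eq, Finset.mul_sum]
  refine Finset.sum_le_sum fun i _ => ?_
  have : E *ᵥ m i = m i := by
    conv_rhs => rw [← h]
    funext j
    rw [← hE.symm]
    simp [mul_apply, mulVec, dotProduct, mul_comm, hE.symm]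
  have h2 := hup (m i)
  rwa [this] at h2

theorem Q0_drop {A E W B : Matrix ι ι ℝ} {μ : ℝ} (hμ : 0 ≤ μ) (hA : Aᵀ = A) (hE : IsP E)
    (hW : IsP W) (hB : IsP B) (h1 : E * W = W) (h2 : E * B = B) (h3 : E * A * B = B * A * B)
    (hlo : Lo A μ B) : Q0 A W + μ ^ 2 * fro ((1 - W) * B) ≤ Q0 A E := by
  have e1 := hW.fro_split_left (E * A * E)
  have e2 := hW.fro_right (W * (E * A * E))
  have e3 := hB.fro_right ((1 - W) * (E * A * E))
  have e4 : W * (E * A * E) * W = W * A * W := by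
    rw [← mul_assoc, ← mul_assoc, hE.le_comm hW h1, mul_assoc (W * A), h1]
  have e5 : (1 - W) * (E * A * E) * B = (1 - W) * B * (B * A * B) := by
    rw [mul_assoc, mul_assoc (E * A), h2, h3, mul_assoc (1 - W), ← mul_assoc B, ← mul_assoc B,
      hB.idem]
  have e6 : μ ^ 2 * fro ((1 - W) * B) ≤ fro ((1 - W) * B * (B * A * B)) := by
    rw [fro_mul_eq ((1 - W) * B), fro_mul_eq, Finset.mul_sum]
    refine Finset.sum_le_sum fun i _ => ?_
    have hy : ((1 - W) * B : Matrix ι ι ℝ) i = B *ᵥ ((1 - W : Matrix ι ι ℝ) i) := by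
      funext j
      conv_rhs => rw [← hB.symm]
      simp [mul_apply, mulVec, dotProduct, mul_comm]
    rw [hy, hB.symm, transpose_mul, transpose_mul, hB.symm, hA]
    generalize (1 - W : Matrix ι ι ℝ) i = x
    have a1 := hlo x
    have a2 : qf A (B *ᵥ x) = B *ᵥ x ⬝ᵥ (B * (A * B)) *ᵥ B *ᵥ x := by
      rw [mulVec_mulVec, mul_assoc, mul_assoc, hB.idem, ← mulVec_mulVec, ← mulVec_mulVec,
        dot_mulVec_symm hB.symm, mulVec_mulVec, hB.idem, qf]
    have a3 := dot_sq_le (B *ᵥ x) ((B * (A * B)) *ᵥ B *ᵥ x)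
    rw [← a2] at a3
    have a4 := nsq_nonneg (B *ᵥ x)
    rcases a4.eq_or_lt with h0 | h0
    · rw [← h0, mul_zero]; exact nsq_nonneg _
    · refine le_of_mul_le_mul_left ?_ h0
      have := pow_le_pow_left₀ (mul_nonneg hμ a4) a1 2
      nlinarith
  rw [e4] at e2
  rw [e5] at e3
  simp only [Q0]
  linarith

omit [DecidableEq ι] in
theorem sqrt_nsq_add (x y : ι → ℝ) : √(nsq (x + y)) ≤ √(nsq x) + √(nsq y) := by
  have hx := nsq_nonneg x
  have hy := nsq_nonneg y
  rw [Real.sqrt_le_left (by positivity), add_sq, Real.sq_sqrt hx, Real.sq_sqrt hy]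
  have : x ⬝ᵥ y ≤ √(nsq x) * √(nsq y) := by
    rw [← Real.sqrt_mul hx]
    exact Real.le_sqrt_of_sq_le (dot_sq_le x y)
  simp only [nsq, add_dotProduct, dotProduct_add, dotProduct_comm y x] at *
  linarith

theorem IsP.one_le_trace {P : Matrix ι ι ℝ} (h : IsP P) (h0 : P ≠ 0) : 1 ≤ trace P := by
  obtain ⟨x, hx⟩ : ∃ x, P *ᵥ x ≠ 0 := by
    by_contra hc
    push Not at hc
    exact h0 (eq_of_mulVec fun x => by rw [hc x, zero_mulVec])
  rw [← trace_line hx]
  exact trace_le h (isP_line _) (mul_line_self h)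

namespace Sys

variable (S : Sys ι)

/-- The band between two chains. -/
noncomputable def band (P R : Matrix ι ι ℝ) (s t : ℕ) : Matrix ι ι ℝ := S.ch P s t - S.ch R s t

/-- How far the band has turned. -/
noncomputable def phi (P R : Matrix ι ι ℝ) (s t : ℕ) : ℝ :=
  fro (S.band P R s t * (1 - S.band P R s 0))

variable {S} {P R : Matrix ι ι ℝ} {s t u : ℕ}

theorem Good.band (h : S.Good s P) (h' : S.Good s R) (hle : P * R = R) (ht : s + t ≤ S.N) :
    S.Good (s + t) (S.band P R s t) ∧ S.ch P s t * S.band P R s t = S.band P R s t ∧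
      S.ch R s t * S.band P R s t = 0 ∧ trace (S.band P R s t) = trace P - trace R := by
  have h1 := h.ch t ht
  have h2 := h'.ch t ht
  have h3 := h.ch_mono h' hle t ht
  have h4 : S.ch P s t * S.band P R s t = S.band P R s t := by
    rw [Sys.band, mul_sub, h1.1.idem, h3]
  refine ⟨h1.of_le (h1.1.sub h2.1 h3) h4, h4, ?_, ?_⟩
  · rw [Sys.band, mul_sub, h2.1.idem, h1.1.le_comm h2.1 h3, sub_self]
  · rw [Sys.band, trace_sub, h.trace_ch t ht, h'.trace_ch t ht]

omit [DecidableEq ι] in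
theorem Good.dot (h : S.Good s P) {j : ℕ} (h1 : s ≤ j) (h2 : j < S.N) (x : ι → ℝ) :
    S.e j ⬝ᵥ P *ᵥ x = 0 := by
  rw [dot_mulVec_symm h.1.symm, h.2 j h1 h2, zero_dotProduct]

theorem Good.low_kill (h : S.Good s P) (h' : S.Good s R) (hle : P * R = R) (ht : s + t ≤ S.N) :
    S.ch R s t * S.band P R s 0 = 0 := by
  obtain ⟨b1, -, b3, -⟩ := h.band (t := 0) h' hle (by omega)
  refine eq_of_mulVec fun x => ?_
  rw [← mulVec_mulVec, zero_mulVec]
  refine h'.dom ?_ (fun j h1 h2 => b1.dot h1 h2 x) t ht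
  rw [mulVec_mulVec]
  exact (congrArg (· *ᵥ x) b3).trans (zero_mulVec x)

theorem Good.markov (h : S.Good s P) (h' : S.Good s R) (hle : P * R = R) (htu : t ≤ u)
    (hu : s + u ≤ S.N) : S.band P R s u * (1 - S.band P R s t) * S.band P R s 0 = 0 := by
  obtain ⟨u, rfl⟩ := Nat.exists_eq_add_of_le htu
  obtain ⟨b1, -, -, -⟩ := h.band (t := 0) h' hle (by omega)
  obtain ⟨c1, -, c3, -⟩ := h.band (t := t) h' hle (by omega)
  have k1 : S.ch R s t * ((1 - S.band P R s t) * S.band P R s 0) = 0 := by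
    rw [sub_mul, one_mul, mul_sub, ← mul_assoc, c3, h.low_kill h' hle (by omega)]
    simp
  have k2 : S.ch P s t * ((1 - S.band P R s t) * S.band P R s 0) = 0 := by
    have : S.ch P s t = S.band P R s t + S.ch R s t := by simp [Sys.band]
    rw [this, add_mul, k1, ← mul_assoc, mul_sub, c1.1.idem]
    simp
  refine eq_of_mulVec fun x => ?_
  have he : ∀ j, s + t ≤ j → j < S.N →
      S.e j ⬝ᵥ ((1 - S.band P R s t) * S.band P R s 0) *ᵥ x = 0 := fun j h1 h2 => by
    rw [sub_mul, one_mul, sub_mulVec, dotProduct_sub, b1.dot (by omega) h2, ← mulVec_mulVec,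
      c1.dot h1 h2, sub_self]
  rw [mul_assoc, ← mulVec_mulVec, zero_mulVec, Sys.band, sub_mulVec, ch_add, ch_add,
    (h.ch t (by omega)).dom (by rw [mulVec_mulVec, k2, zero_mulVec]) he u (by omega),
    (h'.ch t (by omega)).dom (by rw [mulVec_mulVec, k1, zero_mulVec]) he u (by omega), sub_self]

omit [DecidableEq ι] in
theorem Good.ext_ch' (h : S.Good s P) (htu : t ≤ u) (hu : s + u ≤ S.N) :
    S.ext P s u * S.ch P s t = S.ch P s t := by
  obtain ⟨u, rfl⟩ := Nat.exists_eq_add_of_le htu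
  rw [← h.ext_ch t (by omega), ← mul_assoc, h.ext_mono t u hu]

theorem Good.window {lam : ℝ} (hlam : 0 ≤ lam) (h : S.Good s P) (h' : S.Good s R)
    (hle : P * R = R) {T : ℕ} (hT : s + T ≤ S.N) (hup : Up S.A lam P)
    (ha : ∀ j < T, S.a (s + j) ≤ lam) (hphi : ∀ t ≤ T, S.phi P R s t ≤ 1 / 2) :
    Cov S.A (lam / 2) fun g =>
      ∀ t ≤ T, nsq (S.band P R s t *ᵥ g) ≤ 1089 * (trace P - trace R) := by
  have hb := fun t (ht : t ≤ T) => h.band (t := t) h' hle (by omega)
  have hE := (h.ext T hT).1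
  have hEb : ∀ t ≤ T, S.band P R s t * S.ext P s T = S.band P R s t := fun t ht =>
    hE.le_comm (hb t ht).1.1 (by rw [← (hb t ht).2.1, ← mul_assoc, h.ext_ch' ht hT])
  have hupE := h.up_ext hup T hT ha
  by_cases h0 : S.band P R s 0 = 0
  · refine Cov.triv (by positivity) fun g t ht => ?_
    have h1 := (hb 0 (by omega)).2.2.2
    rw [h0, trace_zero] at h1
    rw [(hb t ht).1.1.eq_zero (by rw [(hb t ht).2.2.2, ← h1]), ← h1]
    simp [nsq]
  have hn := (hb 0 (by omega)).1.1.one_le_trace h0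
  have hf := (hb 0 (by omega)).1.1.fro
  rw [(hb 0 (by omega)).2.2.2] at hn hf
  generalize trace P - trace R = n at *
  have c1 := chain (A := S.A) (m := fun t u => S.band P R s u * (1 - S.band P R s t))
    (D := fun t => 2 * S.phi P R s t) (r := fun g t => √(nsq (S.band P R s t *ᵥ g))) (T := T) hlam
    (fun t u h1 h2 => by
      have := defect_le (hb 0 (by omega)).1.1 (hb t (by omega)).1.1 (hb u h2).1.1
        ((hb u h2).2.2.2.trans (hb t (by omega)).2.2.2.symm) (h.markov h' hle h1 (by omega))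
      have h3 := hphi t (by omega)
      have h4 := fro_nonneg (S.band P R s u * (1 - S.band P R s t))
      simp only [phi] at h3 ⊢
      nlinarith)
    (fun t u h1 h2 => aco_le hE hupE (by
      rw [mul_sub, mul_one, sub_mul, mul_assoc, hEb u h2, hEb t (by omega)]))
    (fun g t u b h1 h2 hb0 hg => by
      have e : S.band P R s u *ᵥ g = S.band P R s u *ᵥ S.band P R s t *ᵥ g +
          (S.band P R s u * (1 - S.band P R s t)) *ᵥ g := by
        rw [mulVec_mulVec, ← add_mulVec, mul_sub, mul_one, add_sub_cancel]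
      rw [e]
      exact (sqrt_nsq_add _ _).trans (add_le_add (Real.sqrt_le_sqrt ((hb u h2).1.1.nsq_le _))
        ((Real.sqrt_le_left hb0).2 hg)))
    T 0 1 3 (by omega) (by norm_num) (by
      have := hphi T le_rfl
      have := fro_nonneg (S.band P R s 0 * (1 - S.band P R s 0))
      simp only [phi, zero_add] at *
      linarith) (by norm_num)
  have hs : 1 ≤ √n := Real.one_le_sqrt.2 hn
  have hq : √n ^ 2 = n := Real.sq_sqrt (by linarith)
  have c2 := Cov.single (A := S.A) (m := S.band P R s 0) (b := 3 * √n) (by positivity)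
    (by rw [hf, mul_pow, hq]; linarith)
  refine (c1.and c2).mono ?_ ?_
  · have a1 := aco_le hE hupE (hEb 0 (by omega))
    rw [hf] at a1 ⊢
    have a2 : (3 * √n) ^ 4 = 81 * n ^ 2 := by rw [← hq, Real.sqrt_sq (by linarith)]; ring
    have a3 : n * aco S.A (S.band P R s 0) / (3 * √n) ^ 4 ≤ lam / 81 := by
      rw [a2, div_le_div_iff₀ (by positivity) (by norm_num)]
      nlinarith
    linarith
  · rintro g ⟨g1, g2⟩ t ht
    have a1 := g1 t (by omega) (by omega)
    have a2 := (Real.sqrt_le_left (by positivity)).2 g2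
    have a3 : √(nsq (S.band P R s t *ᵥ g)) ≤ 33 * √n := by linarith
    rw [Real.sqrt_le_left (by positivity), mul_pow, hq] at a3
    linarith

theorem Good.drop {μ : ℝ} (hμ : 0 ≤ μ) (h : S.Good s P) (h' : S.Good s R) (hle : P * R = R)
    (hx : (P - R) * S.A * R = 0) (hlo : Lo S.A μ (P - R)) (ht : s + t ≤ S.N) :
    Q0 S.A (S.ch P s t) + μ ^ 2 * S.phi P R s t ≤
      Q0 S.A P + ∑ j ∈ Finset.range t, S.a (s + j) ^ 2 := by
  obtain ⟨b1, b2, -, b4⟩ := h.band (t := 0) h' hle (by omega)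
  obtain ⟨c1, -, -, c4⟩ := h.band (t := t) h' hle ht
  have hB : S.band P R s 0 = P - R := rfl
  have h3 : ∀ n, s + n ≤ S.N → S.ext P s n * S.A * (P - R) = (P - R) * S.A * (P - R) := by
    intro n hn
    induction n with
    | zero =>
      have := congrArg transpose hx
      rw [transpose_mul, transpose_mul, h'.1.symm, S.symm, ← hB, b1.1.symm, hB, ← mul_assoc,
        transpose_zero] at this
      rw [sub_mul P, sub_mul (P * S.A), this, sub_zero]
      rfl
    | succ n ih =>
      show (S.ext P s n + line (S.e (s + n))) * _ * _ = _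
      rw [add_mul, add_mul, ih (by omega), add_eq_left]
      refine eq_of_mulVec fun x => ?_
      rw [← mulVec_mulVec, ← mulVec_mulVec, line_mulVec, dot_mulVec_symm S.symm,
        S.eig _ (by omega), smul_dotProduct, ← hB, b1.dot (by omega) (by omega)]
      simp
  have := Q0_drop hμ S.symm (h.ext t ht).1 (h.ch t ht).1 b1.1 (h.ext_ch t ht)
    (by rw [← b2, ← mul_assoc, h.ext_ch' (Nat.zero_le t) ht]) (h3 t ht) hlo
  have e : (1 - S.ch P s t) * S.band P R s 0 = (1 - S.band P R s t) * S.band P R s 0 := by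
    have : S.ch P s t = S.band P R s t + S.ch R s t := by simp [Sys.band]
    rw [this, sub_mul, sub_mul, add_mul, h.low_kill h' hle ht, add_zero]
  rw [e, fro_compl_mul c1.1 b1.1, h.Q0_ext t ht, b4, ← c4, ← fro_mul_compl c1.1 b1.1] at this
  exact this

end Sys

end Vale.Agent.P262
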